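import Vale.Agent.P134T.Calc

/-!
# P134W: the two-point function, its lower supports, and the weak form of pointwise inequalities
-/

open MeasureTheory Metric Filter Topology Set
open scoped ContDiff RealInnerProductSpace
open Vale.Agent.P366.Stmt (E)
open Vale.Agent.P134B

noncomputable section

namespace Vale.Agent.P134W

variable {n : ℕ}

/-- the two-point quotient; it is zero for `z = 0` -/
def Z2 (ψ : E n → ℝ) (x z : E n) : ℝ := 2 * (ψ x + ⟪gradient ψ x, z⟫ - ψ (x + z)) / ‖z‖ ^ 2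

/-- the opening of the widest paraboloid which touches `ψ` from below at `x` -/
def mu (ψ : E n → ℝ) (x : E n) : ℝ := ⨆ z, Z2 ψ x z

/-- `μ₁`; the function `μ₂` of `u` is `m1 (-u)` -/
def m1 (u : E n → ℝ) : E n → ℝ := mu (ps u)

/-- the operator `T = S + μ₁` -/
def TT (u : E n → ℝ) (x v : E n) : E n := SS u x v + m1 u x • v

/-- `φ` is a lower support of `l` at `x` -/
structure Low (l φ : E n → ℝ) (x : E n) : Prop where
  c2 : ContDiffAt ℝ 2 φ x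
  eq : φ x = l x
  le : ∀ᶠ y in 𝓝 x, φ y ≤ l y

/-- `l` is Lipschitz and semiconvex near `x` -/
def SC (l : E n → ℝ) (x : E n) : Prop := ∃ C : ℝ, ∀ᶠ p : E n × E n in 𝓝 (x, 0),
  |l (p.1 + p.2) - l p.1| ≤ C * ‖p.2‖ ∧
    -(C * ‖p.2‖ ^ 2) ≤ l (p.1 + p.2) + l (p.1 - p.2) - 2 * l p.1

/-- a lower support of `μ₁` with the direction `a` and the remainder `R` -/
structure Sup (u φ : E n → ℝ) (x a : E n) (R : ℝ) : Prop where
  low : Low (m1 u) φ x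
  gr : gradient φ x = TT u x a
  lf : Lf u φ x + PP u x * m1 u x = 2 * ⟪a, TT u x a⟫ - 2 * √2 * u x * m1 u x ^ 2 + R

/-- the paraboloid touches at the second point `x + z` -/
structure CA (u : E n → ℝ) (x z : E n) : Prop where
  ne : z ≠ 0
  eq : Z2 (ps u) x z = m1 u x
  py : pp u (x + z) = pp u x - m1 u x • z
  qy : qq u (x + z) = qq u x + 2 * m1 u x * (ps u (x + z) - ps u x)

/-- the paraboloid osculates in the direction `e` -/
structure CB (u : E n → ℝ) (x e : E n) : Prop where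
  one : ‖e‖ = 1
  ker : TT u x e = 0

/-- the remainder in the first case -/
def RA (u : E n → ℝ) (x z : E n) : ℝ := 2 * √2 / ‖z‖ ^ 2 *
  (qq u x * (u (x + z) - u x - ff u x * (ps u (x + z) - ps u x)) +
    2 * m1 u x * (ps u (x + z) - ps u x) * (u (x + z) - u x))

/-- the remainder in the second case -/
def RB (u : E n → ℝ) (x e : E n) : ℝ :=
  ff u x * pe u e x ^ 2 * (4 * √2 * m1 u x - 2 * u x * qq u x)

/-! ### the statements -/

/-- **MU**: the elementary properties of `μ₁` -/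
def MU : Prop := ∀ (n : ℕ) (C : ℝ) (u : E n → ℝ), Ok C u →
  (∀ x z, Z2 (ps u) x z ≤ m1 u x) ∧ (∀ x, 0 ≤ m1 u x) ∧ (∀ x, m1 u x ≤ 2 * C) ∧
  (∀ x z, ps u x + ⟪pp u x, z⟫ - m1 u x * ‖z‖ ^ 2 / 2 ≤ ps u (x + z)) ∧
  (∀ x v, 0 ≤ ⟪v, TT u x v⟫) ∧ (∀ x y, |m1 u y - m1 u x| ≤ 2 * C * ‖y - x‖) ∧
  ∀ x, m1 u x = 0 ∨ (∃ z, CA u x z) ∨ ∃ e, CB u x e

/-- **MSC**: `μ₁` is semiconvex -/
def MSC : Prop := ∀ (n : ℕ) (C : ℝ) (u : E n → ℝ), Ok C u → ∀ x, SC (m1 u) x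

/-- **SUPA** (from MU): the support by reflection -/
def SUPA : Prop := ∀ (n : ℕ) (C : ℝ) (u : E n → ℝ) (x z : E n), Ok C u → CA u x z →
  ∃ φ, Sup u φ x ((2 / ‖z‖ ^ 2) • z) (RA u x z)

/-- **SUPB** (from MU): the support in the osculating case -/
def SUPB : Prop := ∀ (n : ℕ) (C : ℝ) (u : E n → ℝ) (x e : E n), Ok C u → CB u x e →
  ∃ φ a, Sup u φ x a (RB u x e)

/-- **SUP** (from MU, SUPA, SUPB): supports exist at all points -/
def SUP : Prop := ∀ (n : ℕ) (C : ℝ) (u : E n → ℝ) (x : E n), Ok C u → ∃ φ a R, Sup u φ x a R ∧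
  ((m1 u x = 0 ∧ R = 0) ∨ (∃ z, CA u x z ∧ a = (2 / ‖z‖ ^ 2) • z ∧ R = RA u x z) ∨
    ∃ e, CB u x e ∧ R = RB u x e)

/-- **SCC**: the calculus of semiconvex functions -/
def SCC : Prop := ∀ (n : ℕ) (x : E n),
  (∀ l : E n → ℝ, ContDiffAt ℝ 2 l x → SC l x) ∧
  (∀ l l' : E n → ℝ, SC l x → l' =ᶠ[𝓝 x] l → SC l' x) ∧
  (∀ l l' : E n → ℝ, SC l x → SC l' x → SC (fun y => l y + l' y) x) ∧
  (∀ l l' : E n → ℝ, SC l x → SC l' x → SC (fun y => max (l y) (l' y)) x) ∧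
  (∀ (l : E n → ℝ) (K : ℝ → ℝ), SC l x → ContDiffAt ℝ 2 K (l x) →
    (∀ᶠ t in 𝓝 (l x), 0 ≤ deriv K t) → SC (fun y => K (l y)) x) ∧
  (∀ (l a b : E n → ℝ), SC l x → ContDiffAt ℝ 2 a x → ContDiffAt ℝ 2 b x → 0 < a x →
    0 < a x + b x * l x → SC (fun y => l y / (a y + b y * l y)) x) ∧
  ∀ l : E n → ℝ, SC l x → ContinuousAt l x

/-- **BW**: pointwise inequalities for supports give the weak inequality -/
def BW : Prop := ∀ (n : ℕ) (l a ζ r : E n → ℝ), (∀ x ∈ tsupport ζ, SC l x) → ContDiff ℝ 1 a →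
  (∀ x, 0 ≤ a x) → LocallyLipschitz ζ → HasCompactSupport ζ → (∀ x, 0 ≤ ζ x) →
  Integrable (fun x => ζ x * r x) →
  (∀ᵐ x, ζ x ≠ 0 → DifferentiableAt ℝ l x → ∀ ε > (0 : ℝ), ∃ φ, Low l φ x ∧
    r x - ε ≤ a x * lap φ x + ⟪gradient a x, gradient φ x⟫) →
  ∫ x, ζ x * r x ≤ -∫ x, a x * ⟪gradient ζ x, gradient l x⟫

/-- **STL**: stability for Lipschitz test functions, with a positive weight `w` -/
def STL : Prop := ∀ (n : ℕ) (C : ℝ) (u w ξ : E n → ℝ), Ok C u → Stab u → ContDiff ℝ 2 w →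
  LocallyLipschitz ξ → HasCompactSupport ξ →
  ∫ x, w x * (lap w x - (3 * u x ^ 2 - 1) * w x) * ξ x ^ 2 ≤ ∫ x, w x ^ 2 * ‖gradient ξ x‖ ^ 2

end Vale.Agent.P134W
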