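import Vale.Agent.P134W.Defs

/-!
# P134W, row W.MU: the elementary properties of the opening `μ₁`
-/

open MeasureTheory Metric Filter Topology Set
open scoped ContDiff RealInnerProductSpace
open Vale.Agent.P366.Stmt (E)
open Vale.Agent.P134B Vale.Agent.P134T

noncomputable section

namespace Vale.Agent.P134W

namespace MuAux

variable {n : ℕ} {C : ℝ} {u : E n → ℝ}

theorem seg {φ φ' : ℝ → ℝ} {B : ℝ} (h : ∀ t, HasDerivAt φ (φ' t) t)
    (hb : ∀ t, 0 ≤ t → t ≤ 1 → |φ' t| ≤ B) : |φ 1 - φ 0| ≤ B :=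
  norm_image_sub_le_of_norm_deriv_le_segment_01' (f := φ) (f' := φ')
    (fun t _ => (h t).hasDerivWithinAt) fun t ht => hb t ht.1 ht.2.le

/-- the phase along a line -/
theorem line (h : Ok C u) (x z : E n) (t : ℝ) :
    HasDerivAt (fun t : ℝ => ps u (x + t • z)) ⟪pp u (x + t • z), z⟫ t := by
  have hl : HasDerivAt (fun t : ℝ => x + t • z) z t := by
    simpa using ((hasDerivAt_id t).smul_const z).const_add x
  have := (d2 (c2 h.smp) (x + t • z)).hasFDerivAt.comp_hasDerivAt t hl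
  rw [pp, P366W.inner_grad]
  exact this

theorem hp (h : Ok C u) (x : E n) : HasFDerivAt (pp u) (SS u x) x :=
  (h.tcp.differentiable (by simp) x).hasFDerivAt

theorem S_lip (h : Ok C u) (x y : E n) : ‖SS u y - SS u x‖ ≤ C * ‖y - x‖ := by
  have hd : Differentiable ℝ (SS u) :=
    (h.tcp.fderiv_right (m := 1) (by norm_cast)).differentiable (by simp)
  refine convex_univ.norm_image_sub_le_of_norm_fderiv_le (𝕜 := ℝ) (fun z _ => hd z)
    (fun z _ => (h.S1 z).trans ?_) (mem_univ x) (mem_univ y)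
  have := Real.sqrt_le_one.2 (qq_le u z)
  nlinarith [h.C1]

theorem p_lip (h : Ok C u) (x y : E n) : ‖pp u y - pp u x‖ ≤ C * ‖y - x‖ :=
  convex_univ.norm_image_sub_le_of_norm_hasFDerivWithin_le (𝕜 := ℝ)
    (fun z _ => (hp h z).hasFDerivWithinAt) (fun z _ => h.tS_le z) (mem_univ x) (mem_univ y)

theorem p_lip2 (h : Ok C u) (x y v : E n) :
    ‖(pp u (y + v) - pp u (x + v)) - (pp u y - pp u x)‖ ≤ C * ‖y - x‖ * ‖v‖ := by
  have := convex_univ.norm_image_sub_le_of_norm_hasFDerivWithin_le (𝕜 := ℝ)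
    (f := fun v => pp u (y + v) - pp u (x + v)) (f' := fun v => SS u (y + v) - SS u (x + v))
    (C := C * ‖y - x‖) (fun z _ => (((hasFDerivAt_comp_add_left y).2 (hp h (y + z))).sub
      ((hasFDerivAt_comp_add_left x).2 (hp h (x + z)))).hasFDerivWithinAt)
    (fun z _ => by simpa using S_lip h (x + z) (y + z)) (mem_univ 0) (mem_univ v)
  simpa using this

theorem p_tay (h : Ok C u) (x v : E n) : ‖pp u (x + v) - pp u x - SS u x v‖ ≤ C * ‖v‖ ^ 2 := by
  have := (convex_closedBall x ‖v‖).norm_image_sub_le_of_norm_hasFDerivWithin_le' (𝕜 := ℝ)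
    (f := pp u) (f' := SS u) (φ := SS u x) (C := C * ‖v‖) (fun z _ => (hp h z).hasFDerivWithinAt)
    (fun z hz => (S_lip h x z).trans (mul_le_mul_of_nonneg_left (mem_closedBall_iff_norm.1 hz)
      (by linarith [h.C1]))) (mem_closedBall_self (norm_nonneg v))
    (y := x + v) (by simp)
  simp only [add_sub_cancel_left] at this
  linarith

/-- the remainder of the first order -/
def rm (u : E n → ℝ) (x z : E n) : ℝ := ps u (x + z) - ps u x - ⟪pp u x, z⟫

theorem z2_eq (x z : E n) : Z2 (ps u) x z = -2 * rm u x z / ‖z‖ ^ 2 := by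
  unfold Z2 rm pp; ring

theorem rm_line (h : Ok C u) (x z : E n) (t : ℝ) :
    HasDerivAt (fun t : ℝ => ps u (x + t • z) - t * ⟪pp u x, z⟫)
      ⟪pp u (x + t • z) - pp u x, z⟫ t := by
  rw [inner_sub_left]
  exact (line h x z t).sub (hasDerivAt_mul_const ⟪pp u x, z⟫)

theorem nt {t : ℝ} (h0 : 0 ≤ t) (h1 : t ≤ 1) (z : E n) : ‖t • z‖ ≤ ‖z‖ := by
  rw [norm_smul, Real.norm_of_nonneg h0]
  exact mul_le_of_le_one_left (norm_nonneg _) h1

theorem rm1 (h : Ok C u) (x z : E n) : |rm u x z| ≤ C * ‖z‖ ^ 2 := by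
  have := seg (B := C * ‖z‖ ^ 2) (rm_line h x z) fun t h0 h1 => by
    have k := p_lip h x (x + t • z)
    rw [add_sub_cancel_left] at k
    have k2 := mul_le_mul_of_nonneg_left (nt h0 h1 z) (by linarith [h.C1] : 0 ≤ C)
    have k3 := mul_le_mul_of_nonneg_right (k.trans k2) (norm_nonneg z)
    exact (abs_real_inner_le_norm _ _).trans (by linarith)
  convert this using 2
  simp only [rm, one_smul, zero_smul, add_zero]; ring

theorem rm2 (h : Ok C u) (x y z : E n) : |rm u y z - rm u x z| ≤ C * ‖y - x‖ * ‖z‖ ^ 2 := by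
  have := seg (B := C * ‖y - x‖ * ‖z‖ ^ 2) (fun t => (rm_line h y z t).sub (rm_line h x z t))
    fun t h0 h1 => by
    have k := p_lip2 h x y (t • z)
    have c0 : 0 ≤ C * ‖y - x‖ := mul_nonneg (by linarith [h.C1]) (norm_nonneg _)
    have k2 := mul_le_mul_of_nonneg_left (nt h0 h1 z) c0
    have k3 := mul_le_mul_of_nonneg_right (k.trans k2) (norm_nonneg z)
    rw [← inner_sub_left, sub_sub_sub_comm]
    exact (abs_real_inner_le_norm _ _).trans (by linarith)
  convert this using 2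
  simp only [rm, one_smul, zero_smul, add_zero, Pi.sub_apply]; ring

theorem rm3 (h : Ok C u) (x z : E n) : |rm u x z - ⟪SS u x z, z⟫ / 2| ≤ C * ‖z‖ ^ 3 := by
  have hd : ∀ t : ℝ, HasDerivAt (fun t : ℝ => ps u (x + t • z) - t * ⟪pp u x, z⟫ -
      t ^ 2 / 2 * ⟪SS u x z, z⟫) ⟪pp u (x + t • z) - pp u x - SS u x (t • z), z⟫ t := by
    intro t
    rw [inner_sub_left, map_smul, real_inner_smul_left]
    refine (rm_line h x z t).sub ?_
    simpa using ((hasDerivAt_pow 2 t).div_const 2).mul_const ⟪SS u x z, z⟫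
  have := seg (B := C * ‖z‖ ^ 3) hd fun t h0 h1 => by
    have k := p_tay h x (t • z)
    have k2 := mul_le_mul_of_nonneg_left (pow_le_pow_left₀ (norm_nonneg _) (nt h0 h1 z) 2)
      (by linarith [h.C1] : 0 ≤ C)
    have k3 := mul_le_mul_of_nonneg_right (k.trans k2) (norm_nonneg z)
    exact (abs_real_inner_le_norm _ _).trans (by linarith)
  convert this using 2
  simp only [rm, one_smul, zero_smul, add_zero]; ring

theorem rm4 (h : Ok C u) (x z : E n) : |rm u x z| ≤ 2 * ‖z‖ := by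
  have k1 := h.tlip x (x + z)
  rw [add_sub_cancel_left] at k1
  have k2 := (abs_real_inner_le_norm (pp u x) z).trans
    (mul_le_of_le_one_left (norm_nonneg z) (h.tpp_le x))
  have k3 := abs_sub (ps u (x + z) - ps u x) ⟪pp u x, z⟫
  unfold rm
  linarith

/-- an upper bound for the quotient from a lower bound for the remainder -/
theorem z2_le {x z : E n} {B : ℝ} (hz : z ≠ 0) (k : -(B * ‖z‖ ^ 2) ≤ 2 * rm u x z) :
    Z2 (ps u) x z ≤ B := by
  rw [z2_eq, div_le_iff₀ (by positivity)]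
  linarith

theorem z2_zero (x : E n) : Z2 (ps u) x 0 = 0 := by simp [Z2]

theorem z2_bd (h : Ok C u) (x z : E n) : Z2 (ps u) x z ≤ 2 * C := by
  by_cases hz : z = 0
  · rw [hz, z2_zero]; linarith [h.C1]
  · exact z2_le hz (by linarith [(abs_le.1 (rm1 h x z)).1])

theorem le_m1 (h : Ok C u) (x z : E n) : Z2 (ps u) x z ≤ m1 u x :=
  le_ciSup (f := fun z => Z2 (ps u) x z) ⟨2 * C, by rintro _ ⟨z, rfl⟩; exact z2_bd h x z⟩ z

theorem m1_nn (h : Ok C u) (x : E n) : 0 ≤ m1 u x := z2_zero (u := u) x ▸ le_m1 h x 0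

theorem par (h : Ok C u) (x z : E n) : -(m1 u x * ‖z‖ ^ 2) ≤ 2 * rm u x z := by
  by_cases hz : z = 0
  · simp [hz, rm]
  · have := le_m1 h x z
    rw [z2_eq, div_le_iff₀ (by positivity)] at this
    linarith

theorem inner_TT (x v w : E n) : ⟪w, TT u x v⟫ = ⟪SS u x v, w⟫ + m1 u x * ⟪v, w⟫ := by
  rw [TT, inner_add_right, real_inner_smul_right, real_inner_comm w, real_inner_comm w]

theorem TT_nn (h : Ok C u) (x v : E n) : 0 ≤ ⟪v, TT u x v⟫ := by
  rw [inner_TT, real_inner_self_eq_norm_sq]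
  refine le_of_forall_pos_le_add fun ε hε => ?_
  have hC : 0 < C := by linarith [h.C1]
  obtain ⟨t, ht, k⟩ : ∃ t : ℝ, 0 < t ∧ 2 * C * ‖v‖ ^ 3 * t ≤ ε := by
    refine ⟨ε / (2 * C * ‖v‖ ^ 3 + 1), by positivity, ?_⟩
    rw [← mul_div_assoc, div_le_iff₀ (by positivity)]
    nlinarith
  have k1 := par h x (t • v)
  have k2 := (abs_le.1 (rm3 h x (t • v))).2
  rw [map_smul, real_inner_smul_left, real_inner_smul_right] at k2
  rw [norm_smul, Real.norm_of_nonneg ht.le] at k1 k2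
  have k3 : 0 ≤ t ^ 2 * (⟪SS u x v, v⟫ + m1 u x * ‖v‖ ^ 2 + 2 * C * ‖v‖ ^ 3 * t) := by
    nlinarith
  have k4 := nonneg_of_mul_nonneg_right k3 (by positivity) |>.trans (le_refl _)
  linarith

theorem m1_lip (h : Ok C u) (x y : E n) : m1 u y ≤ m1 u x + 2 * C * ‖y - x‖ := by
  refine ciSup_le fun z => ?_
  have c0 : 0 ≤ C * ‖y - x‖ := mul_nonneg (by linarith [h.C1]) (norm_nonneg _)
  by_cases hz : z = 0
  · rw [hz, z2_zero]; linarith [m1_nn h x]
  · exact z2_le hz (by linarith [(abs_le.1 (rm2 h x y z)).1, par h x z])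

/-- an isotropic vector of the form lies in the kernel -/
theorem ker (h : Ok C u) {x e : E n} (he : ⟪e, TT u x e⟫ = 0) : TT u x e = 0 := by
  have key : ∀ (w : E n) (t : ℝ), 0 ≤ ⟪w, TT u x w⟫ * (t * t) + 2 * ⟪w, TT u x e⟫ * t + 0 := by
    intro w t
    have k := TT_nn h x (e + t • w)
    have s := h.sy x w e
    simp only [inner_TT, map_add, map_smul, inner_add_left, inner_add_right, real_inner_smul_left,
      real_inner_smul_right] at k he ⊢
    rw [real_inner_comm w e] at k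
    rw [real_inner_comm (SS u x e) w] at s
    rw [s] at k
    rw [real_inner_comm w e]
    nlinarith
  have := discrim_le_zero (key (TT u x e))
  rw [discrim, real_inner_self_eq_norm_sq] at this
  have k : ‖TT u x e‖ ^ 2 = 0 := by nlinarith [sq_nonneg (‖TT u x e‖ ^ 2)]
  exact norm_eq_zero.1 (pow_eq_zero_iff two_ne_zero |>.1 k)

theorem coercive (h : Ok C u) {x z₁ : E n} (hz : z₁ ≠ 0) (hn : ¬ ∃ e, CB u x e) :
    ∃ κ > 0, ∀ v, κ * ‖v‖ ^ 2 ≤ ⟪v, TT u x v⟫ := by
  have hc : Continuous fun v : E n => ⟪v, TT u x v⟫ := by unfold TT; fun_prop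
  have un : ∀ v : E n, v ≠ 0 → ‖v‖⁻¹ • v ∈ sphere (0 : E n) 1 := fun v hv => by
    rw [mem_sphere_zero_iff_norm, norm_smul, norm_inv, norm_norm, inv_mul_cancel₀ (by simpa)]
  obtain ⟨e, he, hm⟩ := (isCompact_sphere (0 : E n) 1).exists_isMinOn ⟨_, un z₁ hz⟩
    hc.continuousOn
  refine ⟨⟪e, TT u x e⟫, (TT_nn h x e).lt_of_ne fun k =>
    hn ⟨e, mem_sphere_zero_iff_norm.1 he, ker h k.symm⟩, fun v => ?_⟩
  by_cases hv : v = 0
  · simp [hv]
  have k : ⟪e, TT u x e⟫ ≤ ⟪‖v‖⁻¹ • v, TT u x (‖v‖⁻¹ • v)⟫ := hm (un v hv)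
  have e2 : ⟪‖v‖⁻¹ • v, TT u x (‖v‖⁻¹ • v)⟫ = ⟪v, TT u x v⟫ / ‖v‖ ^ 2 := by
    simp only [inner_TT, map_smul, real_inner_smul_left, real_inner_smul_right]
    field_simp
  rwa [e2, le_div_iff₀ (by positivity)] at k

/-- a second point of contact -/
theorem ca_of (h : Ok C u) {x z : E n} (hz : z ≠ 0) (he : Z2 (ps u) x z = m1 u x) : CA u x z := by
  have e1 : 2 * rm u x z = -(m1 u x * ‖z‖ ^ 2) := by
    rw [z2_eq, div_eq_iff (by positivity)] at he
    linarith
  have py : pp u (x + z) = pp u x - m1 u x • z := by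
    refine ext_inner_right ℝ fun w => ?_
    have hl : HasDerivAt (fun t : ℝ => z + t • w) w 0 := by
      simpa using ((hasDerivAt_id (0 : ℝ)).smul_const w).const_add z
    have d1 := line h (x + z) w 0
    have d2 := (hasDerivAt_const (0 : ℝ) (pp u x)).inner ℝ hl
    have d3 := hl.norm_sq.const_mul (m1 u x)
    have hm : IsLocalMin (fun t : ℝ => 2 * (ps u (x + z + t • w) - ⟪pp u x, z + t • w⟫) +
        m1 u x * ‖z + t • w‖ ^ 2) 0 := by
      refine Eventually.of_forall fun t => ?_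
      have k := par h x (z + t • w)
      simp only [rm, zero_smul, add_zero, ← add_assoc] at k e1 ⊢
      linarith
    have := hm.hasDerivAt_eq_zero (((d1.sub d2).const_mul 2).add d3)
    simp only [zero_smul, add_zero, inner_zero_left] at this
    rw [inner_sub_left, real_inner_smul_left]
    linarith
  refine ⟨hz, he, py, ?_⟩
  rw [qq, qq, py, norm_sub_sq_real, real_inner_smul_right, norm_smul, mul_pow, Real.norm_eq_abs,
    sq_abs]
  unfold rm at e1
  linear_combination (-(m1 u x)) * e1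

theorem tri (h : Ok C u) (x : E n) : m1 u x = 0 ∨ (∃ z, CA u x z) ∨ ∃ e, CB u x e := by
  by_cases h0 : m1 u x = 0
  · exact .inl h0
  by_cases hn : ∃ e, CB u x e
  · exact .inr (.inr hn)
  refine .inr (.inl ?_)
  have hμ : 0 < m1 u x := (m1_nn h x).lt_of_ne (Ne.symm h0)
  have hC : 0 < C := by linarith [h.C1]
  obtain ⟨z₀, hz₀⟩ := exists_lt_of_lt_ciSup (f := fun z => Z2 (ps u) x z) hμ
  obtain ⟨κ, hκ, hk⟩ := coercive h (z₁ := z₀) (by rintro rfl; simp [z2_zero] at hz₀) hn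
  have hlt : max (m1 u x - κ / 2) (m1 u x / 2) < m1 u x := max_lt (by linarith) (by linarith)
  have out : ∀ z, z ∉ closedBall (0 : E n) (8 / m1 u x) \ ball 0 (κ / (4 * C)) →
      Z2 (ps u) x z ≤ max (m1 u x - κ / 2) (m1 u x / 2) := by
    intro z hz
    by_cases hz0 : z = 0
    · rw [hz0, z2_zero]; exact le_max_of_le_right (by linarith)
    by_cases hb : ‖z‖ < κ / (4 * C)
    · refine le_max_of_le_left (z2_le hz0 ?_)
      have k1 := (abs_le.1 (rm3 h x z)).1
      have k2 := hk z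
      rw [inner_TT, real_inner_self_eq_norm_sq] at k2
      rw [lt_div_iff₀ (by positivity)] at hb
      have k3 := mul_le_mul_of_nonneg_right hb.le (sq_nonneg ‖z‖)
      nlinarith
    · have hb' : 8 / m1 u x < ‖z‖ := by
        by_contra k
        exact hz ⟨mem_closedBall_zero_iff.2 (not_lt.1 k), fun k => hb (mem_ball_zero_iff.1 k)⟩
      refine le_max_of_le_right (z2_le hz0 ?_)
      have k1 := (abs_le.1 (rm4 h x z)).1
      rw [div_lt_iff₀ hμ] at hb'
      have k3 := mul_le_mul_of_nonneg_right hb'.le (norm_nonneg z)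
      nlinarith
  obtain ⟨z₁, hz₁⟩ := exists_lt_of_lt_ciSup (f := fun z => Z2 (ps u) x z) hlt
  have m₁ : z₁ ∈ closedBall (0 : E n) (8 / m1 u x) \ ball 0 (κ / (4 * C)) := by
    by_contra k
    exact (out z₁ k).not_gt hz₁
  have ne : ∀ z ∈ closedBall (0 : E n) (8 / m1 u x) \ ball 0 (κ / (4 * C)), z ≠ 0 := by
    rintro z hz rfl
    exact hz.2 (mem_ball_self (by positivity))
  have hc : ContinuousOn (fun z => Z2 (ps u) x z)
      (closedBall (0 : E n) (8 / m1 u x) \ ball 0 (κ / (4 * C))) := by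
    have := h.smp.continuous
    exact ContinuousOn.div (by fun_prop) (by fun_prop) fun z hz => by have := ne z hz; positivity
  obtain ⟨z, hz, hm⟩ := ((isCompact_closedBall _ _).diff isOpen_ball).exists_isMaxOn ⟨z₁, m₁⟩ hc
  refine ⟨z, ca_of h (ne z hz) ((le_m1 h x z).antisymm (ciSup_le fun w => ?_))⟩
  by_cases hw : w ∈ closedBall (0 : E n) (8 / m1 u x) \ ball 0 (κ / (4 * C))
  · exact hm hw
  · exact (out w hw).trans (hz₁.le.trans (hm m₁))

end MuAux

open MuAux in
/-- Row W.MU. -/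
theorem mu_all : MU := fun _ C u h =>
  ⟨le_m1 h, m1_nn h, fun x => ciSup_le (z2_bd h x), fun x z => by
    have := par h x z
    unfold rm at this
    linarith, TT_nn h, fun x y => abs_le.2 ⟨by
    have := m1_lip h y x
    rw [norm_sub_rev] at this
    linarith, by linarith [m1_lip h x y]⟩, tri h⟩

end Vale.Agent.P134W
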