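import Vale.Agent.P134W.Defs

/-!
# P134W, row STL: stability for Lipschitz test functions
-/

open MeasureTheory Metric Filter Topology Set
open scoped ContDiff RealInnerProductSpace Convolution
open Vale.Agent.P366.Stmt (E)
open Vale.Agent.P366W hiding Gr
open Vale.Agent.P134B Vale.Agent.P134T

noncomputable section

namespace Vale.Agent.P134W

namespace Stl

variable {n : ℕ} {u w ξ : E n → ℝ}

/-- a locally Lipschitz function with compact support is Lipschitz -/
theorem lip_of (h : LocallyLipschitz ξ) (hc : HasCompactSupport ξ) : ∃ L, LipschitzWith L ξ := by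
  obtain ⟨L, hL⟩ := LocallyLipschitzOn.exists_lipschitzOnWith_of_compact
    (hc.isCompact.cthickening (r := 1)) h.locallyLipschitzOn
  obtain ⟨M, hM⟩ := h.continuous.bounded_above_of_compact_support hc
  have M0 : 0 ≤ M := (norm_nonneg _).trans (hM 0)
  have key : ∀ x y, x ∉ cthickening 1 (tsupport ξ) → dist (ξ x) (ξ y) ≤ (L + M) * dist x y := by
    intro x y hx
    have h0 : ξ x = 0 := image_eq_zero_of_notMem_tsupport fun k => hx (self_subset_cthickening _ k)
    by_cases hy : y ∈ tsupport ξ
    · have h1 : 1 ≤ dist x y := not_lt.1 fun k => hx (mem_cthickening_of_dist_le x y 1 _ hy k.le)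
      rw [h0, dist_zero_left]
      nlinarith [hM y, L.coe_nonneg]
    · rw [h0, image_eq_zero_of_notMem_tsupport hy, dist_self]
      positivity
  refine ⟨L + ⟨M, M0⟩, LipschitzWith.of_dist_le_mul fun x y => ?_⟩
  change _ ≤ (L + M) * _
  by_cases hx : x ∈ cthickening 1 (tsupport ξ)
  · by_cases hy : y ∈ cthickening 1 (tsupport ξ)
    · nlinarith [hL.dist_le_mul x hx y hy, dist_nonneg (x := x) (y := y)]
    · rw [dist_comm, dist_comm x]
      exact key y x hy
  · exact key x y hx

/-- bump functions with small radii -/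
def bk (n k : ℕ) : ContDiffBump (0 : E n) :=
  ⟨1 / ((k : ℝ) + 1) / 2, 1 / ((k : ℝ) + 1), by positivity, half_lt_self (by positivity)⟩

theorem bk_lim (n : ℕ) : Tendsto (fun k => (bk n k).rOut) atTop (𝓝 0) :=
  tendsto_one_div_add_atTop_nhds_zero_nat

theorem conv_le {F : Type} [NormedAddCommGroup F] [NormedSpace ℝ F] (b : ContDiffBump (0 : E n))
    {g : E n → F} {B : ℝ} (hB : ∀ x, ‖g x‖ ≤ B) (x : E n) :
    ‖(b.normed volume ⋆[ContinuousLinearMap.lsmul ℝ ℝ, volume] g) x‖ ≤ B := by
  calc _ ≤ ∫ t, b.normed volume t * B := by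
        refine norm_integral_le_of_norm_le (b.integrable_normed.mul_const B)
          (Eventually.of_forall fun t => ?_)
        rw [ContinuousLinearMap.lsmul_apply, norm_smul, Real.norm_of_nonneg (b.nonneg_normed t)]
        exact mul_le_mul_of_nonneg_left (hB _) (b.nonneg_normed t)
    _ = B := by rw [integral_mul_const, b.integral_normed, one_mul]

theorem conv_der (b : ContDiffBump (0 : E n)) {L : NNReal} (h : LipschitzWith L ξ) (x : E n) :
    fderiv ℝ (b.normed volume ⋆[ContinuousLinearMap.lsmul ℝ ℝ, volume] ξ) x =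
      (b.normed volume ⋆[ContinuousLinearMap.lsmul ℝ ℝ, volume] fderiv ℝ ξ) x := by
  have c : ∀ y, Continuous fun t => b.normed volume t • ξ (y - t) := fun y =>
    b.continuous_normed.smul (h.continuous.comp (continuous_const.sub continuous_id))
  have hae : ∀ᵐ t, DifferentiableAt ℝ ξ (x - t) :=
    (Measure.measurePreserving_sub_left volume x).quasiMeasurePreserving.ae h.ae_differentiableAt
  refine (hasFDerivAt_integral_of_dominated_loc_of_lip' (𝕜 := ℝ) (μ := (volume : Measure (E n)))
    (F := fun y t => b.normed volume t • ξ (y - t))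
    (F' := fun t => b.normed volume t • fderiv ℝ ξ (x - t))
    (bound := fun t => b.normed volume t * L) (s := univ) (x₀ := x) univ_mem
    (fun y _ => (c y).aestronglyMeasurable)
    ((c x).integrable_of_hasCompactSupport b.hasCompactSupport_normed.smul_right) ?_
    (Eventually.of_forall fun t y _ => ?_) (b.integrable_normed.mul_const _) ?_).2.fderiv
  · exact b.continuous_normed.aestronglyMeasurable.smul
      ((measurable_fderiv ℝ ξ).comp (measurable_const.sub measurable_id)).aestronglyMeasurable
  · rw [← smul_sub, norm_smul, Real.norm_of_nonneg (b.nonneg_normed t), mul_assoc]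
    refine mul_le_mul_of_nonneg_left ?_ (b.nonneg_normed t)
    simpa [dist_eq_norm] using h.dist_le_mul (y - t) (x - t)
  · filter_upwards [hae] with t ht
    have := ht.hasFDerivAt.comp x ((hasFDerivAt_id x).sub_const t)
    rw [ContinuousLinearMap.comp_id] at this
    exact this.const_smul (b.normed volume t)

/-- smooth approximation of a Lipschitz function with compact support -/
theorem approx (h : LocallyLipschitz ξ) (hc : HasCompactSupport ξ) :
    ∃ (f : ℕ → E n → ℝ) (K : Set (E n)) (L : ℝ), IsCompact K ∧ (∀ k, ContDiff ℝ ∞ (f k)) ∧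
      (∀ k, tsupport (f k) ⊆ K) ∧ (∀ k x, |f k x| ≤ L ∧ ‖gradient (f k) x‖ ≤ L) ∧
      (∀ x, Tendsto (fun k => f k x) atTop (𝓝 (ξ x))) ∧
      ∀ᵐ x, Tendsto (fun k => gradient (f k) x) atTop (𝓝 (gradient ξ x)) := by
  obtain ⟨L, hL⟩ := lip_of h hc
  obtain ⟨M, hM⟩ := h.continuous.bounded_above_of_compact_support hc
  have hD : ∀ x, ‖fderiv ℝ ξ x‖ ≤ L := fun x => norm_fderiv_le_of_lipschitz ℝ hL
  refine ⟨fun k => (bk n k).normed volume ⋆[ContinuousLinearMap.lsmul ℝ ℝ, volume] ξ,
    cthickening 1 (tsupport ξ), max M L, hc.isCompact.cthickening, fun k =>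
    (bk n k).hasCompactSupport_normed.contDiff_convolution_left _ (bk n k).contDiff_normed
      h.continuous.locallyIntegrable, fun k => ?_, fun k x => ⟨?_, ?_⟩, fun x =>
    ContDiffBump.convolution_tendsto_right_of_continuous (bk_lim n) h.continuous x, ?_⟩
  · refine closure_minimal ((support_convolution_subset _).trans ?_) isClosed_cthickening
    rintro _ ⟨a, ha, b, hb, rfl⟩
    rw [(bk n k).support_normed_eq, mem_ball_zero_iff] at ha
    refine mem_cthickening_of_dist_le _ b 1 _ (subset_tsupport _ hb) ?_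
    have : (bk n k).rOut ≤ 1 := by
      change 1 / ((k : ℝ) + 1) ≤ 1
      rw [div_le_one (by positivity)]
      linarith [k.cast_nonneg (α := ℝ)]
    simpa using (ha.le.trans this)
  · exact (conv_le _ hM x).trans (le_max_left _ _)
  · rw [norm_gradient, conv_der _ hL]
    exact (conv_le _ hD x).trans (le_max_right _ _)
  · have hi : LocallyIntegrable (fderiv ℝ ξ) volume := fun x =>
      ⟨ball x 1, ball_mem_nhds x one_pos, Measure.integrableOn_of_bounded (M := L)
        measure_ball_lt_top.ne (measurable_fderiv ℝ ξ).aestronglyMeasurable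
        (Eventually.of_forall hD)⟩
    filter_upwards [ContDiffBump.ae_convolution_tendsto_right_of_locallyIntegrable (K := 2)
      (bk_lim n) (Eventually.of_forall fun k => by simp only [bk]; linarith) hi] with x hx
    simp only [gradient, conv_der _ hL]
    exact ((InnerProductSpace.toDual ℝ (E n)).symm.continuous.tendsto _).comp hx

theorem cont_pot (hu : Continuous u) (hw : ContDiff ℝ 2 w) :
    Continuous fun x => w x * (lap w x - (3 * u x ^ 2 - 1) * w x) := by
  have h1 : Continuous (lap w) := continuous_dvg (contDiff_gradient (k := 1) hw)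
  have h2 := hw.continuous
  fun_prop

/-- the inequality for test functions of class `C¹` -/
theorem stl_c1 (hu : Continuous u) (hs : Stab u) (hw : ContDiff ℝ 2 w) (hξ : ContDiff ℝ 1 ξ)
    (hc : HasCompactSupport ξ) :
    ∫ x, w x * (lap w x - (3 * u x ^ 2 - 1) * w x) * ξ x ^ 2 ≤ ∫ x, w x ^ 2 * ‖gradient ξ x‖ ^ 2 := by
  have w1 : ContDiff ℝ 1 w := hw.of_le (by norm_num)
  have g1 : ContDiff ℝ 1 (gradient w) := contDiff_gradient (k := 1) hw
  have dξ : ∀ x, DifferentiableAt ℝ ξ x := hξ.differentiable one_ne_zero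
  have c2 : HasCompactSupport fun x => ξ x ^ 2 := hc.comp_left (g := fun t : ℝ => t ^ 2) (by simp)
  have hY : ContDiff ℝ 1 fun y => (w y * (ξ y * ξ y)) • gradient w y :=
    (w1.mul (hξ.mul hξ)).smul g1
  have cY : HasCompactSupport fun y => (w y * (ξ y * ξ y)) • gradient w y :=
    (hc.mul_left.mul_left).smul_right
  have i1 : Integrable fun x => w x * (lap w x - (3 * u x ^ 2 - 1) * w x) * ξ x ^ 2 :=
    ((cont_pot hu hw).mul (hξ.continuous.pow 2)).integrable_of_hasCompactSupport c2.mul_left
  have cg : HasCompactSupport fun x => ‖gradient ξ x‖ ^ 2 :=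
    (hc.fderiv ℝ).comp_left (g := fun A => ‖(InnerProductSpace.toDual ℝ (E n)).symm A‖ ^ 2)
      (by simp)
  have i2 : Integrable fun x => w x ^ 2 * ‖gradient ξ x‖ ^ 2 :=
    ((hw.continuous.pow 2).mul ((contDiff_gradient (k := 0) hξ).continuous.norm.pow
      2)).integrable_of_hasCompactSupport cg.mul_left
  have i3 := (continuous_dvg hY).integrable_of_hasCompactSupport (μ := volume) (hcs_dvg cY)
  have h0 := hs (fun x => w x * ξ x) (w1.mul hξ) hc.mul_left
  have e : ∀ x, ‖gradient (fun x => w x * ξ x) x‖ ^ 2 + (3 * u x ^ 2 - 1) * (w x * ξ x) ^ 2 =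
      w x ^ 2 * ‖gradient ξ x‖ ^ 2 - w x * (lap w x - (3 * u x ^ 2 - 1) * w x) * ξ x ^ 2 +
        dvg (fun y => (w y * (ξ y * ξ y)) • gradient w y) x := fun x => by
    rw [dvg_smul ((d2 hw x).fun_mul ((dξ x).fun_mul (dξ x))) (dg2 hw x), ← inner_grad,
      grad_mul (d2 hw x) ((dξ x).fun_mul (dξ x)), grad_mul (dξ x) (dξ x),
      grad_mul (d2 hw x) (dξ x), norm_add_sq_real]
    simp only [norm_smul, mul_pow, Real.norm_eq_abs, sq_abs, inner_add_left, inner_smul_left,
      inner_smul_right, conj_trivial, real_inner_self_eq_norm_sq, lap]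
    ring
  simp only [e] at h0
  have i4 : Integrable fun x => w x ^ 2 * ‖gradient ξ x‖ ^ 2 -
      w x * (lap w x - (3 * u x ^ 2 - 1) * w x) * ξ x ^ 2 := i2.sub i1
  rw [integral_add i4 i3, integral_sub i2 i1, integral_dvg_zero hY cY] at h0
  linarith

/-- dominated convergence on a compact set -/
theorem lim_int {K : Set (E n)} (hK : IsCompact K) {a : E n → ℝ} (ha : Continuous a)
    {g : ℕ → E n → ℝ} {G : E n → ℝ} {B : ℝ} (hg : ∀ k, Continuous (g k))
    (h0 : ∀ k x, x ∉ K → g k x = 0) (hB : ∀ k x, |g k x| ≤ B)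
    (hl : ∀ᵐ x, Tendsto (fun k => g k x) atTop (𝓝 (G x))) :
    Tendsto (fun k => ∫ x, a x * g k x ^ 2) atTop (𝓝 (∫ x, a x * G x ^ 2)) := by
  refine tendsto_integral_of_dominated_convergence (K.indicator fun x => |a x| * B ^ 2)
    (fun k => (ha.mul ((hg k).pow 2)).aestronglyMeasurable)
    ((integrable_indicator_iff hK.measurableSet).2
      ((ha.abs.mul continuous_const).continuousOn.integrableOn_compact hK))
    (fun k => Eventually.of_forall fun x => ?_) (hl.mono fun x hx => (hx.pow 2).const_mul _)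
  by_cases hx : x ∈ K
  · rw [indicator_of_mem hx, norm_mul, norm_pow, Real.norm_eq_abs, Real.norm_eq_abs]
    have := hB k x
    gcongr
  · simp [indicator_of_notMem hx, h0 k x hx]

end Stl

open Stl in
/-- **Row STL.** -/
theorem stl : STL := by
  intro n C u w ξ hu hs hw h hc
  obtain ⟨f, K, L, hK, f1, f2, f3, f4, f5⟩ := approx h hc
  have f0 : ∀ k, ContDiff ℝ 1 (f k) := fun k => (f1 k).of_le (by norm_cast)
  refine le_of_tendsto_of_tendsto' (lim_int hK (cont_pot hu.sm.continuous hw)
    (fun k => (f1 k).continuous) (fun k x hx => image_eq_zero_of_notMem_tsupport fun m =>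
      hx (f2 k m)) (fun k x => (f3 k x).1) (Eventually.of_forall f4))
    (lim_int (g := fun k x => ‖gradient (f k) x‖) (B := L) hK (hw.continuous.pow 2)
      (fun k => (smooth_gradient (f1 k)).continuous.norm) (fun k x hx => ?_)
      (fun k x => by simpa using (f3 k x).2) (f5.mono fun x hx => hx.norm))
    fun k => stl_c1 hu.sm.continuous hs hw (f0 k) (hK.of_isClosed_subset (isClosed_tsupport _) (f2 k))
  rw [norm_gradient, image_eq_zero_of_notMem_tsupport
    fun m => hx (f2 k (tsupport_fderiv_subset ℝ m)), norm_zero]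

end Vale.Agent.P134W
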