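import Vale.Agent.P134W.Scc
import Vale.Agent.P134W.Stl

/-!
# P134W, row BW: from lower supports to the weak inequality
-/

set_option linter.all false

open MeasureTheory Metric Filter Topology Set
open scoped ContDiff RealInnerProductSpace NNReal
open Vale.Agent.P366.Stmt (E)
open Vale.Agent.P366W hiding Gr
open Vale.Agent.P134B Vale.Agent.P134T

noncomputable section

namespace Vale.Agent.P134W

namespace Bw

variable {n : ℕ} {l χ φ : E n → ℝ} {x : E n} {L L' : ℝ≥0}

/-- the symmetric second difference -/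
def sd (l : E n → ℝ) (v x : E n) : ℝ := l (x + v) + l (x - v) - 2 * l x

theorem sd_lim (h : ContDiffAt ℝ 2 φ x) (v : E n) :
    Tendsto (fun s : ℝ => sd φ (s • v) x / s ^ 2) (𝓝[>] 0) (𝓝 ⟪fderiv ℝ (gradient φ) x v, v⟫) := by
  have c1 : ∀ w : E n, Tendsto (fun s : ℝ => x + s • w) (𝓝[>] 0) (𝓝 x) := fun w =>
    ((continuous_const.add (continuous_id.smul continuous_const)).tendsto' 0 x
      (by simp)).mono_left nhdsWithin_le_nhds
  have d1 : ∀ (w : E n) (s : ℝ), HasDerivAt (fun s : ℝ => x + s • w) w s := fun w s => by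
    simpa using ((hasDerivAt_id s).smul_const w).const_add x
  have d2 : ∀ w : E n, ∀ᶠ s in 𝓝[>] (0 : ℝ),
      HasDerivAt (fun s : ℝ => φ (x + s • w)) ⟪gradient φ (x + s • w), w⟫ s := fun w => by
    filter_upwards [(c1 w).eventually (evA h)] with s hs
    rw [inner_grad]
    exact hs.hasFDerivAt.comp_hasDerivAt s (d1 w s)
  have d3 : ∀ w : E n, HasDerivAt (fun s : ℝ => ⟪gradient φ (x + s • w), w⟫)
      ⟪fderiv ℝ (gradient φ) x w, w⟫ 0 := fun w => by
    have a1 : HasFDerivAt (gradient φ) (fderiv ℝ (gradient φ) x) (x + (0 : ℝ) • w) := by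
      simpa using (dgA h).hasFDerivAt
    simpa using (a1.comp_hasDerivAt (0 : ℝ) (d1 w 0)).inner ℝ (hasDerivAt_const (0 : ℝ) w)
  have d4 := ((d3 v).add (d3 (-v))).tendsto_slope_zero_right
  have e : ∀ s : ℝ, x - s • v = x + s • -v := fun s => by rw [smul_neg, sub_eq_add_neg]
  simp only [sd, e]
  refine HasDerivAt.lhopital_zero_nhdsGT
    (f' := fun s => ⟪gradient φ (x + s • v), v⟫ + ⟪gradient φ (x + s • -v), -v⟫)
    (g' := fun s => 2 * s) ?_ (Eventually.of_forall fun s => by simpa using hasDerivAt_pow 2 s)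
    ?_ ?_ ?_ ?_
  · filter_upwards [d2 v, d2 (-v)] with s a b using (a.add b).sub_const _
  · filter_upwards [self_mem_nhdsWithin] with s hs using mul_ne_zero two_ne_zero (ne_of_gt hs)
  · have := ((h.continuousAt.tendsto.comp (c1 v)).add
      (h.continuousAt.tendsto.comp (c1 (-v)))).sub_const (2 * φ x)
    rw [show φ x + φ x - 2 * φ x = 0 by ring] at this
    exact this
  · exact ((continuous_pow 2).tendsto' (0 : ℝ) 0 (by simp)).mono_left nhdsWithin_le_nhds
  · have := d4.const_mul (1 / 2 : ℝ)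
    simp only [map_neg, inner_neg_left, inner_neg_right, neg_neg, zero_add, zero_smul, add_zero,
      Pi.add_apply, add_neg_cancel, sub_zero, smul_eq_mul] at this ⊢
    convert this using 2
    · ring
    · ring

theorem shift (hl : Continuous l) (hχ : Continuous χ) (hc : HasCompactSupport χ) (v : E n) :
    ∫ x, χ x * sd l v x = -∫ x, (χ (x + v) - χ x) * (l (x + v) - l x) := by
  have hc' : HasCompactSupport fun x => χ (x + v) := hc.comp_homeomorph (Homeomorph.addRight v)
  have i1 : Integrable fun x => χ x * (l (x + v) - l x) :=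
    (by fun_prop : Continuous fun x => χ x * (l (x + v) - l x)).integrable_of_hasCompactSupport
      hc.mul_right
  have i2 : Integrable fun x => χ x * (l (x - v) - l x) :=
    (by fun_prop : Continuous fun x => χ x * (l (x - v) - l x)).integrable_of_hasCompactSupport
      hc.mul_right
  have i3 : Integrable fun x => χ (x + v) * (l (x + v) - l x) :=
    (by fun_prop : Continuous fun x => χ (x + v) * (l (x + v) - l x)).integrable_of_hasCompactSupport
      hc'.mul_right
  have e1 := integral_add_right_eq_self (μ := volume) (fun x => χ x * (l (x - v) - l x)) v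
  simp only [add_sub_cancel_right] at e1
  have e2 : ∫ x, χ (x + v) * (l x - l (x + v)) = -∫ x, χ (x + v) * (l (x + v) - l x) := by
    rw [← integral_neg]; congr 1; ext x; ring
  have e3 : ∫ x, χ x * sd l v x =
      (∫ x, χ x * (l (x + v) - l x)) + ∫ x, χ x * (l (x - v) - l x) := by
    rw [← integral_add i1 i2]; congr 1; ext x; rw [sd]; ring
  have e4 : ∫ x, (χ (x + v) - χ x) * (l (x + v) - l x) =
      (∫ x, χ (x + v) * (l (x + v) - l x)) - ∫ x, χ x * (l (x + v) - l x) := by
    rw [← integral_sub i3 i1]; congr 1; ext x; ring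
  linarith

theorem dq_le (hl : LipschitzWith L l) {v : E n} (hv : ‖v‖ = 1) {s : ℝ} (hs : 0 < s) (x : E n) :
    |s⁻¹ * (l (x + s • v) - l x)| ≤ L := by
  have h := hl.norm_sub_le (x + s • v) x
  rw [add_sub_cancel_left, norm_smul, hv, mul_one, Real.norm_of_nonneg hs.le] at h
  rw [abs_mul, abs_of_pos (inv_pos.2 hs), inv_mul_le_iff₀ hs, mul_comm]
  exact h

theorem dq_lim (hl : LipschitzWith L l) (hχ : LipschitzWith L' χ) (hc : HasCompactSupport χ)
    {v : E n} (hv : ‖v‖ = 1) : Integrable (fun x => fderiv ℝ χ x v * fderiv ℝ l x v) ∧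
    Tendsto (fun s : ℝ => ∫ x, χ x * (sd l (s • v) x / s ^ 2)) (𝓝[>] 0)
      (𝓝 (-∫ x, fderiv ℝ χ x v * fderiv ℝ l x v)) := by
  have cl := hl.continuous
  have cχ := hχ.continuous
  set K := cthickening 1 (tsupport χ)
  have hK : IsCompact K := hc.isCompact.cthickening
  have bI : Integrable (K.indicator fun _ : E n => (L' : ℝ) * L) :=
    (integrableOn_const hK.measure_lt_top.ne).integrable_indicator hK.measurableSet
  have bd : ∀ᶠ s in 𝓝[>] (0 : ℝ), ∀ x, ‖s⁻¹ * (χ (x + s • v) - χ x) *
      (s⁻¹ * (l (x + s • v) - l x))‖ ≤ K.indicator (fun _ : E n => (L' : ℝ) * L) x := by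
    filter_upwards [Ioc_mem_nhdsGT one_pos] with s hs x
    by_cases hx : x ∈ K
    · rw [indicator_of_mem hx, Real.norm_eq_abs, abs_mul]
      exact mul_le_mul (dq_le hχ hv hs.1 x) (dq_le hl hv hs.1 x) (abs_nonneg _) L'.coe_nonneg
    · have h0 : χ x = 0 :=
        image_eq_zero_of_notMem_tsupport fun k => hx (self_subset_cthickening _ k)
      have h1 : χ (x + s • v) = 0 := image_eq_zero_of_notMem_tsupport fun k => hx
        (mem_cthickening_of_dist_le x _ 1 _ k (by
          rw [dist_self_add_right, norm_smul, hv, mul_one, Real.norm_of_nonneg hs.1.le]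
          exact hs.2))
      rw [indicator_of_notMem hx, h0, h1]; simp
  have lim : ∀ᵐ x, Tendsto (fun s : ℝ => s⁻¹ * (χ (x + s • v) - χ x) *
      (s⁻¹ * (l (x + s • v) - l x))) (𝓝[>] 0) (𝓝 (fderiv ℝ χ x v * fderiv ℝ l x v)) := by
    filter_upwards [hl.ae_differentiableAt (μ := volume), hχ.ae_differentiableAt (μ := volume)]
      with x a b
    exact (b.hasFDerivAt.hasLineDerivAt v).tendsto_slope_zero_right.mul
      (a.hasFDerivAt.hasLineDerivAt v).tendsto_slope_zero_right
  refine ⟨bI.mono' ((measurable_fderiv_apply_const ℝ χ v).mul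
    (measurable_fderiv_apply_const ℝ l v)).aestronglyMeasurable ?_, ?_⟩
  · filter_upwards [lim] with x hx using le_of_tendsto hx.norm (bd.mono fun s hs => hs x)
  have t := (tendsto_integral_filter_of_dominated_convergence (μ := volume) _
    (Eventually.of_forall fun s => Continuous.aestronglyMeasurable (by fun_prop))
    (bd.mono fun s hs => Eventually.of_forall hs) bI lim).neg
  refine t.congr fun s => ?_
  have e := shift cl cχ hc (s • v)
  have e1 : ∫ x, χ x * (sd l (s • v) x / s ^ 2) = (s ^ 2)⁻¹ * ∫ x, χ x * sd l (s • v) x := by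
    rw [← integral_const_mul]; congr 1; ext x; ring
  rw [e1, e, mul_neg, ← integral_const_mul]
  congr 2; ext x; ring

theorem inner_sum (f g : E n → ℝ) (x : E n) : ⟪gradient f x, gradient g x⟫ =
    ∑ i, fderiv ℝ f x (EuclideanSpace.single i 1) * fderiv ℝ g x (EuclideanSpace.single i 1) := by
  rw [inner_eq_sum]
  refine Finset.sum_congr rfl fun i _ => ?_
  rw [← inner_grad, ← inner_grad, EuclideanSpace.inner_single_right,
    EuclideanSpace.inner_single_right]
  simp

theorem bw0 {G : E n → ℝ} {C δ : ℝ} (hl : LipschitzWith L l) (hχ : LipschitzWith L' χ)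
    (hc : HasCompactSupport χ) (h0 : ∀ x, 0 ≤ χ x) (hC : 0 ≤ C) (hδ : 0 < δ)
    (hs : ∀ x, χ x ≠ 0 → ∀ v, ‖v‖ ≤ δ → -(C * ‖v‖ ^ 2) ≤ sd l v x) (hG : Integrable G)
    (hp : ∀ᵐ x, (χ x = 0 ∧ G x ≤ 0) ∨
      ∀ ε > (0 : ℝ), ∃ φ, Low l φ x ∧ G x - ε ≤ χ x * lap φ x) :
    ∫ x, G x ≤ -∫ x, ⟪gradient χ x, gradient l x⟫ := by
  have cl := hl.continuous
  have cχ := hχ.continuous
  set e : Fin n → E n := fun i => EuclideanSpace.single i 1 with he
  have e1 : ∀ i, ‖e i‖ = 1 := fun i => by simp [he]
  set A : ℝ → E n → ℝ := fun s x => ∑ i, χ x * (sd l (s • e i) x / s ^ 2) with hA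
  have c1 : ∀ s i, Continuous fun x => χ x * (sd l (s • e i) x / s ^ 2) := fun s i => by
    unfold sd; fun_prop
  have i1 : ∀ s i, Integrable fun x => χ x * (sd l (s • e i) x / s ^ 2) := fun s i =>
    (c1 s i).integrable_of_hasCompactSupport hc.mul_right
  have iA : ∀ s, Integrable (A s) := fun s => integrable_finset_sum _ fun i _ => i1 s i
  have t1 : Tendsto (fun s => ∫ x, A s x) (𝓝[>] 0) (𝓝 (-∫ x, ⟪gradient χ x, gradient l x⟫)) := by
    simp only [inner_sum, hA]
    rw [integral_finset_sum _ fun i _ => (dq_lim hl hχ hc (e1 i)).1, ← Finset.sum_neg_distrib]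
    refine (tendsto_finset_sum _ fun i _ => (dq_lim hl hχ hc (e1 i)).2).congr fun s => ?_
    rw [integral_finset_sum _ fun i _ => i1 s i]
  have χI : Integrable χ := cχ.integrable_of_hasCompactSupport hc
  have lo : ∀ᶠ s in 𝓝[>] (0 : ℝ), ∀ x, -(n * C * χ x) ≤ A s x := by
    filter_upwards [Ioc_mem_nhdsGT hδ] with s hs' x
    by_cases hx : χ x = 0
    · simp [hA, hx]
    have k : ∀ i, χ x * -C ≤ χ x * (sd l (s • e i) x / s ^ 2) := fun i => by
      refine mul_le_mul_of_nonneg_left ?_ (h0 x)
      have n1 : ‖s • e i‖ = s := by rw [norm_smul, e1, mul_one, Real.norm_of_nonneg hs'.1.le]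
      have := hs x hx (s • e i) (n1.le.trans hs'.2)
      rw [n1] at this
      rw [le_div_iff₀ (pow_pos hs'.1 2)]
      linarith
    have := Finset.sum_le_sum fun i (_ : i ∈ Finset.univ) => k i
    simp only [Finset.sum_const, Finset.card_univ, Fintype.card_fin, nsmul_eq_mul] at this
    calc -(n * C * χ x) = n * (χ x * -C) := by ring
      _ ≤ _ := this
  have t2 : Tendsto (fun s => ∫ x, min (A s x) (G x)) (𝓝[>] 0) (𝓝 (∫ x, G x)) := by
    refine tendsto_integral_filter_of_dominated_convergence (fun x => |G x| + n * C * χ x)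
      (Eventually.of_forall fun s => ((iA s).inf hG).aestronglyMeasurable) ?_
      (hG.abs.add (χI.const_mul _)) ?_
    · filter_upwards [lo] with s a
      refine Eventually.of_forall fun x => abs_le.2 ⟨le_min ?_ ?_, (min_le_right _ _).trans ?_⟩
      · linarith [a x, abs_nonneg (G x)]
      · linarith [neg_abs_le (G x), mul_nonneg (mul_nonneg (Nat.cast_nonneg n) hC) (h0 x)]
      · linarith [le_abs_self (G x), mul_nonneg (mul_nonneg (Nat.cast_nonneg n) hC) (h0 x)]
    · filter_upwards [hp] with x hx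
      rcases hx with ⟨a, b⟩ | hx
      · refine tendsto_const_nhds.congr fun s => ?_
        rw [min_eq_right]
        simpa [hA, a] using b
      refine tendsto_order.2 ⟨fun b hb => ?_, fun b hb =>
        Eventually.of_forall fun s => (min_le_right _ _).trans_lt hb⟩
      obtain ⟨φ, p1, p2⟩ := hx ((G x - b) / 2) (by linarith)
      have t3 : Tendsto (fun s : ℝ => ∑ i, χ x * (sd φ (s • e i) x / s ^ 2)) (𝓝[>] 0)
          (𝓝 (χ x * lap φ x)) := by
        have := tendsto_finset_sum Finset.univ fun i _ => (sd_lim p1.c2 (e i)).const_mul (χ x)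
        convert this using 2
        rw [lap, dvg, Finset.mul_sum]
        refine Finset.sum_congr rfl fun i _ => ?_
        rw [he, EuclideanSpace.inner_single_right]
        simp
      have c2 : ∀ w : E n, Tendsto (fun s : ℝ => x + s • w) (𝓝[>] 0) (𝓝 x) := fun w =>
        ((continuous_const.add (continuous_id.smul continuous_const)).tendsto' 0 x
          (by simp)).mono_left nhdsWithin_le_nhds
      have t4 : ∀ᶠ s in 𝓝[>] (0 : ℝ), ∀ i, sd φ (s • e i) x ≤ sd l (s • e i) x := by
        refine eventually_all.2 fun i => ?_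
        filter_upwards [(c2 (e i)).eventually p1.le, (c2 (-e i)).eventually p1.le] with s a b
        rw [smul_neg, ← sub_eq_add_neg] at b
        rw [sd, sd, p1.eq]
        linarith
      filter_upwards [t3.eventually (Ioi_mem_nhds (show b < χ x * lap φ x by linarith)), t4]
        with s a c
      refine lt_min (lt_of_lt_of_le a (Finset.sum_le_sum fun i _ => ?_)) hb
      exact mul_le_mul_of_nonneg_left (div_le_div_of_nonneg_right (c i) (sq_nonneg s)) (h0 x)
  exact le_of_tendsto_of_tendsto' t2 t1 fun s =>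
    integral_mono ((iA s).inf hG) (iA s) fun x => min_le_left _ _

/-- uniform constants on a compact set -/
theorem unif {K : Set (E n)} (hK : IsCompact K) (h : ∀ x ∈ K, SC l x) : ∃ C : ℝ, 0 ≤ C ∧
    ∃ U, IsOpen U ∧ K ⊆ U ∧ ∃ δ > (0 : ℝ), ∀ y ∈ U, ∀ v : E n, ‖v‖ ≤ δ →
      |l (y + v) - l y| ≤ C * ‖v‖ ∧ -(C * ‖v‖ ^ 2) ≤ sd l v y := by
  refine hK.induction_on (p := fun s => ∃ C : ℝ, 0 ≤ C ∧
    ∃ U, IsOpen U ∧ s ⊆ U ∧ ∃ δ > (0 : ℝ), ∀ y ∈ U, ∀ v : E n, ‖v‖ ≤ δ →
      |l (y + v) - l y| ≤ C * ‖v‖ ∧ -(C * ‖v‖ ^ 2) ≤ sd l v y)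
    ⟨0, le_rfl, ∅, isOpen_empty, Subset.rfl, 1, one_pos, fun _ h => h.elim⟩ ?_ ?_ ?_
  · rintro s t hst ⟨C, c, U, u1, u2, r⟩
    exact ⟨C, c, U, u1, hst.trans u2, r⟩
  · rintro s t ⟨C, c, U, u1, u2, δ, d, r⟩ ⟨C', c', U', u1', u2', δ', d', r'⟩
    refine ⟨C + C', by positivity, U ∪ U', u1.union u1', union_subset_union u2 u2', min δ δ',
      lt_min d d', fun y hy v hv => ?_⟩
    have k1 := mul_nonneg c (norm_nonneg v)
    have k2 := mul_nonneg c' (norm_nonneg v)
    have k3 := mul_nonneg c (sq_nonneg ‖v‖)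
    have k4 := mul_nonneg c' (sq_nonneg ‖v‖)
    rcases hy with hy | hy
    · have := r y hy v (hv.trans (min_le_left _ _))
      exact ⟨by linarith [this.1], by linarith [this.2]⟩
    · have := r' y hy v (hv.trans (min_le_right _ _))
      exact ⟨by linarith [this.1], by linarith [this.2]⟩
  · intro x hx
    obtain ⟨C, c, h1⟩ := (h x hx).nn
    obtain ⟨r, r0, h2⟩ := Metric.eventually_nhds_iff_ball.1 h1
    refine ⟨ball x r, mem_nhdsWithin_of_mem_nhds (ball_mem_nhds x r0), C, c, ball x r,
      isOpen_ball, Subset.rfl, r / 2, half_pos r0, fun y hy v hv => ?_⟩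
    have := h2 (y, v) (by
      rw [← ball_prod_same]
      exact ⟨hy, mem_ball_zero_iff.2 (by linarith)⟩)
    exact ⟨this.1, this.2.2⟩

theorem bw : BW := by
  intro n l a ζ r hl ha a0 hζ hc ζ0 hr hp
  obtain ⟨C, c0, U, u1, u2, δ, d0, hU⟩ := unif hc.isCompact hl
  obtain ⟨ρ, ρ0, hρ⟩ := hc.isCompact.exists_cthickening_subset_open u1 u2
  set K := cthickening ρ (tsupport ζ)
  have hK : IsCompact K := hc.isCompact.cthickening
  have l1 : LocallyLipschitzOn K l := fun x hx => by
    refine ⟨⟨C, c0⟩, ball x (δ / 2) ∩ K, inter_mem (mem_nhdsWithin_of_mem_nhds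
      (ball_mem_nhds x (half_pos d0))) self_mem_nhdsWithin,
      LipschitzOnWith.of_dist_le_mul fun y hy z hz => ?_⟩
    have k : ‖y - z‖ ≤ δ := by
      rw [← dist_eq_norm]
      linarith [dist_triangle_right y z x, mem_ball.1 hy.1, mem_ball.1 hz.1]
    have := (hU z (hρ hz.2) (y - z) k).1
    rw [add_sub_cancel] at this
    rw [dist_eq_norm y z]
    exact this
  obtain ⟨L, hL⟩ := l1.exists_lipschitzOnWith_of_compact hK
  obtain ⟨m, m1, m2⟩ := hL.extend_real
  have ev : ∀ x ∈ tsupport ζ, l =ᶠ[𝓝 x] m := fun x hx => by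
    filter_upwards [closedBall_mem_nhds x ρ0] with y hy
    exact m2 (closedBall_subset_cthickening hx ρ hy)
  have χ1 : LocallyLipschitz fun x => a x * ζ x :=
    (contDiff_mul (𝕜 := ℝ) (n := 1)).locallyLipschitz.comp (ha.locallyLipschitz.prodMk hζ)
  have χ2 : HasCompactSupport fun x => a x * ζ x := hc.mul_left
  obtain ⟨L', hL'⟩ := Stl.lip_of χ1 χ2
  have ad := ha.differentiable one_ne_zero
  have ga : Continuous (gradient a) := (contDiff_gradient (k := 0) ha).continuous
  have mm : Measurable (gradient m) :=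
    (InnerProductSpace.toDual ℝ (E n)).symm.continuous.measurable.comp (measurable_fderiv ℝ m)
  have gm : ∀ x, ‖gradient m x‖ ≤ L := fun x => by
    rw [norm_gradient]; exact norm_fderiv_le_of_lipschitz ℝ m1
  have i1 : Integrable fun x => ζ x * ⟪gradient a x, gradient m x⟫ := by
    have j1 : Integrable fun x => ‖ζ x • gradient a x‖ * L :=
      ((hζ.continuous.smul ga).norm.integrable_of_hasCompactSupport
        (hc.smul_right (f' := gradient a)).norm).mul_const _
    refine j1.mono' (hζ.continuous.measurable.mul (ga.measurable.inner mm)).aestronglyMeasurable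
      (Eventually.of_forall fun x => ?_)
    rw [norm_mul, norm_smul, mul_assoc]
    exact mul_le_mul_of_nonneg_left ((norm_inner_le_norm _ _).trans
      (mul_le_mul_of_nonneg_left (gm x) (norm_nonneg _))) (norm_nonneg _)
  have i2 : Integrable fun x => ⟪gradient (fun x => a x * ζ x) x, gradient m x⟫ := by
    simp only [inner_sum]
    exact integrable_finset_sum _ fun i _ => (dq_lim m1 hL' χ2 (by simp)).1
  have k := bw0 (G := fun x => ζ x * r x - ζ x * ⟪gradient a x, gradient m x⟫) (δ := min δ ρ)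
    m1 hL' χ2 (fun x => mul_nonneg (a0 x) (ζ0 x)) c0 (lt_min d0 ρ0) (fun x hx v hv => by
      have h1 : x ∈ tsupport ζ := subset_tsupport _ (right_ne_zero_of_mul hx)
      have h2 := hv.trans (min_le_right _ _)
      have := (hU x (u2 h1) v (hv.trans (min_le_left _ _))).2
      rwa [sd, (ev x h1).self_of_nhds,
        m2 (closedBall_subset_cthickening h1 ρ (by simpa using h2) : x + v ∈ K),
        m2 (closedBall_subset_cthickening h1 ρ (by simpa using h2) : x - v ∈ K)] at this)
    (hr.sub i1) (by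
      filter_upwards [hp, m1.ae_differentiableAt (μ := volume)] with x h1 h2
      by_cases hx : ζ x = 0
      · left; simp [hx]
      refine Or.inr fun ε hε => ?_
      have h3 := ev x (subset_tsupport _ hx)
      have z0 : 0 < ζ x := (ζ0 x).lt_of_ne' hx
      obtain ⟨φ, p1, p2⟩ := h1 hx (h2.congr_of_eventuallyEq h3) (ε / ζ x) (div_pos hε z0)
      have p3 := p1.congr h3.self_of_nhds h3.le
      refine ⟨φ, p3, ?_⟩
      rw [p3.grad h2] at p2
      have p4 := mul_le_mul_of_nonneg_left p2 z0.le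
      rw [mul_sub, mul_div_cancel₀ _ hx] at p4
      linarith)
  have e : ∫ x, a x * ⟪gradient ζ x, gradient l x⟫ =
      ∫ x, (⟪gradient (fun x => a x * ζ x) x, gradient m x⟫ -
        ζ x * ⟪gradient a x, gradient m x⟫) := by
    refine integral_congr_ae ?_
    filter_upwards [rad hζ] with x hx
    rw [grad_mul (ad x) hx, inner_add_left, inner_smul_left, inner_smul_left]
    by_cases h1 : x ∈ tsupport ζ
    · rw [grad_congr (ev x h1)]; simp
    · have h2 : gradient ζ x = 0 := by
        rw [grad_congr (notMem_tsupport_iff_eventuallyEq.1 h1)]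
        exact grad_const 0 x
      simp [h2]
  rw [e, integral_sub i2 i1]
  rw [integral_sub hr i1] at k
  linarith

end Bw

theorem bw : BW := Bw.bw

end Vale.Agent.P134W
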