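import Vale.Agent.P134W.Defs

/-!
# P134W: the function `μ₁` is semiconvex
-/

open Metric Filter Topology Set
open scoped ContDiff RealInnerProductSpace
open Vale.Agent.P366.Stmt (E)
open Vale.Agent.P134B

noncomputable section

namespace Vale.Agent.P134W

namespace Msc

variable {n : ℕ} {V : Type} [NormedAddCommGroup V] [NormedSpace ℝ V]

/-- the second difference -/
def D2 (F : E n → V) (h y : E n) : V := F (y + h) + F (y - h) - (F y + F y)

theorem has_D2 {F : E n → V} (hF : Differentiable ℝ F) (h y : E n) :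
    HasFDerivAt (D2 F h) (D2 (fderiv ℝ F) h y) y :=
  (((hF (y + h)).hasFDerivAt.comp y ((hasFDerivAt_id y).add_const h)).add
    ((hF (y - h)).hasFDerivAt.comp y ((hasFDerivAt_id y).sub_const h))).sub
      ((hF y).hasFDerivAt.add (hF y).hasFDerivAt)

theorem mvt {F : E n → V} {F' : E n → E n →L[ℝ] V} {r K : ℝ} {y a b : E n}
    (hF : ∀ z, HasFDerivAt F (F' z) z) (hK : ∀ z ∈ closedBall y r, ‖F' z‖ ≤ K)
    (ha : a ∈ closedBall y r) (hb : b ∈ closedBall y r) : ‖F a - F b‖ ≤ K * ‖a - b‖ :=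
  (convex_closedBall y r).norm_image_sub_le_of_norm_hasFDerivWithin_le
    (fun z _ => (hF z).hasFDerivWithinAt) hK hb ha

/-- the bound for the second difference -/
theorem D2_le {F : E n → V} (hF : Differentiable ℝ F) {K : ℝ} (hK0 : 0 ≤ K) {h y : E n}
    (hK : ∀ a ∈ closedBall y ‖h‖, ∀ b ∈ closedBall y ‖h‖,
      ‖fderiv ℝ F a - fderiv ℝ F b‖ ≤ K * ‖a - b‖) : ‖D2 F h y‖ ≤ 2 * K * ‖h‖ ^ 2 := by
  have h1 := mvt (F := fun k => F (y + k) + F (y - k))
    (F' := fun k => fderiv ℝ F (y + k) - fderiv ℝ F (y - k)) (y := 0) (r := ‖h‖)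
    (K := K * (2 * ‖h‖)) (a := h) (b := 0) (fun k => by
      have a1 := (hF (y + k)).hasFDerivAt.comp k ((hasFDerivAt_id k).const_add y)
      have a2 := (hF (y - k)).hasFDerivAt.comp k ((hasFDerivAt_id k).const_sub y)
      exact (a1.add a2).congr_fderiv (by ext v; simp [sub_eq_add_neg]))
    (fun k hk => by
      rw [mem_closedBall_zero_iff] at hk
      refine (hK _ (by simpa using hk) _ (by simpa using hk)).trans ?_
      have : y + k - (y - k) = k + k := by abel
      rw [this]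
      exact mul_le_mul_of_nonneg_left ((norm_add_le _ _).trans (by linarith)) hK0)
    (by simp) (by simp)
  simp only [add_zero, sub_zero] at h1
  exact h1.trans_eq (by ring)

theorem lip_on {F : E n → V} (hF : ContDiff ℝ 1 F) (x : E n) : ∃ K : ℝ, 0 ≤ K ∧
    ∀ a ∈ closedBall x 3, ∀ b ∈ closedBall x 3, ‖F a - F b‖ ≤ K * ‖a - b‖ := by
  obtain ⟨K, hK⟩ := (isCompact_closedBall x 3).exists_bound_of_continuousOn
    (hF.continuous_fderiv one_ne_zero).continuousOn
  exact ⟨K, (norm_nonneg _).trans (hK x (mem_closedBall_self (by norm_num))), fun a ha b hb =>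
    mvt (fun z => (hF.differentiable one_ne_zero z).hasFDerivAt) hK ha hb⟩

theorem D2_loc {F : E n → V} (hF : ContDiff ℝ ∞ F) (x : E n) : ∃ K : ℝ, 0 ≤ K ∧
    ∀ h y : E n, ‖h‖ ≤ 1 → dist y x ≤ 2 → ‖D2 F h y‖ ≤ 2 * K * ‖h‖ ^ 2 := by
  obtain ⟨K, h0, hK⟩ := lip_on (hF.fderiv_right (m := 1) (by norm_cast)) x
  refine ⟨K, h0, fun h y h1 h2 => ?_⟩
  have : closedBall y ‖h‖ ⊆ closedBall x 3 := closedBall_subset_closedBall' (by linarith)
  exact D2_le (hF.differentiable (by simp)) h0 fun a ha b hb => hK a (this ha) b (this hb)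

/-- the remainder of the expansion of the first order -/
theorem tay {w : E n → ℝ} {P : E n → E n} {P' : E n → E n →L[ℝ] E n} {K : ℝ} {y z : E n}
    (hw : ∀ a, HasFDerivAt w (innerSL ℝ (P a)) a) (hP : ∀ a, HasFDerivAt P (P' a) a)
    (hK : ∀ a ∈ closedBall y ‖z‖, ‖P' a‖ ≤ K) :
    |w (y + z) - w y - ⟪P y, z⟫| ≤ K * ‖z‖ ^ 2 := by
  have hK0 := (norm_nonneg _).trans (hK y (mem_closedBall_self (norm_nonneg _)))
  have h1 := mvt (F := fun a => w a - innerSL ℝ (P y) a)
    (F' := fun a => innerSL ℝ (P a) - innerSL ℝ (P y)) (y := y) (r := ‖z‖) (K := K * ‖z‖)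
    (a := y + z) (b := y) (fun a => (hw a).sub (innerSL ℝ (P y)).hasFDerivAt)
    (fun a ha => by
      rw [← map_sub, innerSL_apply_norm]
      exact (mvt hP hK ha (mem_closedBall_self (norm_nonneg _))).trans
        (mul_le_mul_of_nonneg_left (by simpa [dist_eq_norm] using ha) hK0))
    (by simp) (by simp)
  simp only [innerSL_apply_apply, inner_add_right, add_sub_cancel_left, Real.norm_eq_abs] at h1
  refine le_of_eq_of_le (congrArg _ (by ring)) (h1.trans_eq (by ring))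

variable {C : ℝ} {u : E n → ℝ}

theorem fd_ps (u : E n → ℝ) (a : E n) : fderiv ℝ (ps u) a = innerSL ℝ (pp u a) := by
  ext v
  exact (P366W.inner_grad _ _ _).symm

theorem D2_ps (h : Ok C u) (k y : E n) : |D2 (ps u) k y| ≤ 2 * C * ‖k‖ ^ 2 :=
  D2_le (h.smp.differentiable (by simp)) (by linarith [h.C1]) fun a _ b _ => by
    rw [fd_ps, fd_ps, ← map_sub, innerSL_apply_norm]
    exact convex_univ.norm_image_sub_le_of_norm_fderiv_le
      (fun z _ => h.tcp.differentiable (by simp) z) (fun z _ => h.tS_le z) (mem_univ b) (mem_univ a)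

theorem D2_pp (h : Ok C u) (k y : E n) : ‖D2 (pp u) k y‖ ≤ 2 * C * ‖k‖ ^ 2 :=
  D2_le (h.tcp.differentiable (by simp)) (by linarith [h.C1]) fun _ ha _ hb =>
    mvt (F := SS u) (fun z => ((h.tcp.fderiv_right (m := 1) (by norm_cast)).differentiable
      one_ne_zero z).hasFDerivAt) (fun a _ => (h.S1 a).trans (by
        have := Real.sqrt_le_one.2 (show qq u a ≤ 1 by unfold qq; nlinarith [norm_nonneg (pp u a)])
        nlinarith [h.C1])) ha hb

/-- the second differences of the numerators -/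
theorem key (h : Ok C u) (x : E n) : ∃ K : ℝ, 0 ≤ K ∧ ∀ y k z : E n, ‖y - x‖ ≤ 1 → ‖k‖ ≤ 1 →
    z ≠ 0 → |D2 (ps u) k (y + z) - D2 (ps u) k y - ⟪D2 (pp u) k y, z⟫| ≤ K * ‖k‖ ^ 2 * ‖z‖ ^ 2 := by
  have hS : ContDiff ℝ ∞ (SS u) := h.tcp.fderiv_right (m := ∞) le_rfl
  obtain ⟨K, hK0, hK⟩ := D2_loc hS x
  have hC := h.C1
  refine ⟨2 * K + 6 * C, by positivity, fun y k z hy hk _ => ?_⟩
  rcases le_total ‖z‖ 1 with hz | hz
  · refine (tay (w := D2 (ps u) k) (P := D2 (pp u) k) (K := 2 * K * ‖k‖ ^ 2) (fun a => ?_)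
      (has_D2 (h.tcp.differentiable (by simp)) k) fun a ha => ?_).trans ?_
    · simpa [D2, fd_ps] using has_D2 (h.smp.differentiable (by simp)) k a
    · refine hK k a hk ?_
      rw [mem_closedBall] at ha
      rw [← dist_eq_norm] at hy
      linarith [dist_triangle a y x]
    · gcongr
      linarith
  · have a1 := D2_ps h k (y + z)
    have a2 := D2_ps h k y
    have a3 := (abs_real_inner_le_norm _ z).trans
      (mul_le_mul_of_nonneg_right (D2_pp h k y) (norm_nonneg z))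
    have a4 := abs_sub (D2 (ps u) k (y + z) - D2 (ps u) k y) ⟪D2 (pp u) k y, z⟫
    have a5 := abs_sub (D2 (ps u) k (y + z)) (D2 (ps u) k y)
    have b0 : 0 ≤ C * ‖k‖ ^ 2 := by positivity
    have b1 : C * ‖k‖ ^ 2 * 1 ≤ C * ‖k‖ ^ 2 * ‖z‖ ^ 2 := by gcongr; nlinarith
    have b2 : C * ‖k‖ ^ 2 * ‖z‖ ≤ C * ‖k‖ ^ 2 * ‖z‖ ^ 2 := by gcongr; nlinarith
    have b3 : 0 ≤ K * ‖k‖ ^ 2 * ‖z‖ ^ 2 := by positivity
    linarith

end Msc

open Msc in
/-- **MSC** -/
theorem msc_of (hmu : MU) : MSC := by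
  intro n C u h x
  obtain ⟨m0, m1', -, -, -, m5, -⟩ := hmu n C u h
  obtain ⟨K, hK0, hK⟩ := key h x
  have hC := h.C1
  have e1 : ∀ᶠ p : E n × E n in 𝓝 (x, 0), ‖p.1 - x‖ < 1 :=
    ContinuousAt.eventually_lt (by fun_prop) continuousAt_const (by simp)
  have e2 : ∀ᶠ p : E n × E n in 𝓝 (x, 0), ‖p.2‖ < 1 :=
    ContinuousAt.eventually_lt (by fun_prop) continuousAt_const (by simp)
  refine ⟨2 * C + 2 * K, ?_⟩
  filter_upwards [e1, e2] with ⟨y, k⟩ hy hk
  refine ⟨(m5 y (y + k)).trans ?_, ?_⟩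
  · rw [add_sub_cancel_left]
    gcongr
    linarith
  · have h1 : m1 u y ≤ (m1 u (y + k) + m1 u (y - k)) / 2 + K * ‖k‖ ^ 2 := ciSup_le fun z => by
      by_cases hz : z = 0
      · have := m1' (y + k)
        have := m1' (y - k)
        simp only [Z2, hz, norm_zero, ne_eq, OfNat.ofNat_ne_zero, not_false_eq_true, zero_pow,
          div_zero]
        positivity
      have a0 : 0 < ‖z‖ ^ 2 := by positivity
      have a1 := (abs_le.1 (hK y k z hy.le hk.le hz)).2
      have a2 := m0 (y + k) z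
      have a3 := m0 (y - k) z
      rw [Z2, div_le_iff₀ a0] at a2 a3 ⊢
      simp only [D2, pp, inner_sub_left, inner_add_left, add_right_comm y z k,
        add_sub_right_comm y z k] at a1
      linarith
    have := mul_nonneg (by linarith : 0 ≤ C) (sq_nonneg ‖k‖)
    simp only
    linarith

end Vale.Agent.P134W
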