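import Vale.Agent.P134W.Loc

/-!
# P134W, row SCC: the calculus of semiconvex functions
-/

set_option linter.all false

open MeasureTheory Metric Filter Topology Set
open scoped ContDiff RealInnerProductSpace
open Vale.Agent.P366.Stmt (E)

noncomputable section

namespace Vale.Agent.P134W

variable {n : ℕ} {l l' : E n → ℝ} {x : E n}

theorem tf1 (x : E n) : Tendsto (fun p : E n × E n => p.1) (𝓝 (x, 0)) (𝓝 x) :=
  continuous_fst.tendsto' _ _ rfl

theorem tf2 (x : E n) : Tendsto (fun p : E n × E n => p.1 + p.2) (𝓝 (x, 0)) (𝓝 x) :=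
  (continuous_fst.add continuous_snd).tendsto' _ _ (by simp)

theorem tf3 (x : E n) : Tendsto (fun p : E n × E n => p.1 - p.2) (𝓝 (x, 0)) (𝓝 x) :=
  (continuous_fst.sub continuous_snd).tendsto' _ _ (by simp)

theorem tf4 (x : E n) : Tendsto (fun p : E n × E n => (p.1, -p.2)) (𝓝 (x, 0)) (𝓝 (x, 0)) :=
  (continuous_fst.prodMk continuous_snd.neg).tendsto' _ _ (by simp)

theorem tf5 (x : E n) : ∀ᶠ p : E n × E n in 𝓝 (x, 0), ‖p.2‖ ≤ 1 :=
  (continuous_snd.norm.tendsto' (x, (0 : E n)) 0 (by simp)).eventually (Iic_mem_nhds one_pos)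

/-- the constant may be taken nonnegative, and both first differences are bounded -/
theorem SC.nn (h : SC l x) : ∃ C : ℝ, 0 ≤ C ∧ ∀ᶠ p : E n × E n in 𝓝 (x, 0),
    |l (p.1 + p.2) - l p.1| ≤ C * ‖p.2‖ ∧ |l (p.1 - p.2) - l p.1| ≤ C * ‖p.2‖ ∧
      -(C * ‖p.2‖ ^ 2) ≤ l (p.1 + p.2) + l (p.1 - p.2) - 2 * l p.1 := by
  obtain ⟨C, h⟩ := h
  refine ⟨|C|, abs_nonneg _, ?_⟩
  filter_upwards [h, (tf4 x).eventually h] with p a b
  have k1 := mul_le_mul_of_nonneg_right (le_abs_self C) (norm_nonneg p.2)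
  have k2 := mul_le_mul_of_nonneg_right (le_abs_self C) (sq_nonneg ‖p.2‖)
  have b1 := b.1
  simp only [norm_neg, ← sub_eq_add_neg] at b1
  exact ⟨a.1.trans k1, b1.trans k1, by linarith [a.2]⟩

theorem SC.cont (h : SC l x) : ContinuousAt l x := by
  obtain ⟨C, -, h⟩ := h.nn
  have t : Tendsto (fun y : E n => (x, y - x)) (𝓝 x) (𝓝 (x, 0)) :=
    (continuous_const.prodMk (continuous_id.sub continuous_const)).tendsto' _ _ (by simp)
  have t2 : Tendsto (fun y : E n => C * ‖y - x‖) (𝓝 x) (𝓝 0) :=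
    (continuous_const.mul (continuous_id.sub continuous_const).norm).tendsto' _ _ (by simp)
  rw [ContinuousAt, tendsto_iff_norm_sub_tendsto_zero]
  refine squeeze_zero' (Eventually.of_forall fun _ => norm_nonneg _) ?_ t2
  filter_upwards [t.eventually h] with y hy
  simpa using hy.1

theorem SC.congr (h : SC l x) (e : l' =ᶠ[𝓝 x] l) : SC l' x := by
  obtain ⟨C, h⟩ := h
  refine ⟨C, ?_⟩
  filter_upwards [h, (tf1 x).eventually e, (tf2 x).eventually e, (tf3 x).eventually e]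
    with p a b c d
  rw [b, c, d]
  exact a

theorem SC.add (h : SC l x) (h' : SC l' x) : SC (fun y => l y + l' y) x := by
  obtain ⟨C, h⟩ := h
  obtain ⟨C', h'⟩ := h'
  refine ⟨C + C', ?_⟩
  filter_upwards [h, h'] with p a b
  have a1 := abs_le.1 a.1
  have b1 := abs_le.1 b.1
  exact ⟨abs_le.2 ⟨by linarith [a1.1, b1.1], by linarith [a1.2, b1.2]⟩, by linarith [a.2, b.2]⟩

theorem SC.max (h : SC l x) (h' : SC l' x) : SC (fun y => max (l y) (l' y)) x := by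
  obtain ⟨C, c0, h⟩ := h.nn
  obtain ⟨C', c1, h'⟩ := h'.nn
  refine ⟨C + C', ?_⟩
  filter_upwards [h, h'] with p a b
  have k1 := mul_nonneg c0 (norm_nonneg p.2)
  have k2 := mul_nonneg c1 (norm_nonneg p.2)
  have k3 := mul_nonneg c0 (sq_nonneg ‖p.2‖)
  have k4 := mul_nonneg c1 (sq_nonneg ‖p.2‖)
  refine ⟨(abs_max_sub_max_le_max _ _ _ _).trans
    (max_le (by linarith [a.1]) (by linarith [b.1])), ?_⟩
  rcases le_total (l p.1) (l' p.1) with e | e
  · rw [max_eq_right e]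
    linarith [b.2.2, le_max_right (l (p.1 + p.2)) (l' (p.1 + p.2)),
      le_max_right (l (p.1 - p.2)) (l' (p.1 - p.2))]
  · rw [max_eq_left e]
    linarith [a.2.2, le_max_left (l (p.1 + p.2)) (l' (p.1 + p.2)),
      le_max_left (l (p.1 - p.2)) (l' (p.1 - p.2))]

/-- composition with a function which is monotone in the semiconvex argument -/
theorem SC.comp2 {V : Type} [NormedAddCommGroup V] [NormedSpace ℝ V] {a : E n → V}
    {Φ : V × ℝ → ℝ} (h : SC l x) (ha : ContDiffAt ℝ 2 a x) (hΦ : ContDiffAt ℝ 2 Φ (a x, l x))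
    (hm : ∀ᶠ q in 𝓝 (a x, l x), 0 ≤ fderiv ℝ Φ q (0, 1)) : SC (fun y => Φ (a y, l y)) x := by
  have hc := h.cont
  obtain ⟨C, c0, h⟩ := h.nn
  obtain ⟨A, a0, hA⟩ := taylor_loc ha
  obtain ⟨L, l0, hL⟩ := taylor_loc hΦ
  have t0 : Tendsto (fun y => (a y, l y)) (𝓝 x) (𝓝 (a x, l x)) := ha.continuousAt.prodMk_nhds hc
  have t1 := t0.comp (tf1 x)
  have t2 := t1.prodMk_nhds ((t0.comp (tf2 x)).sub t1)
  have t3 := t1.prodMk_nhds ((t0.comp (tf3 x)).sub t1)
  rw [sub_self] at t2 t3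
  refine ⟨L * (2 * A + C) + 2 * L * (2 * A + C) ^ 2 + L * (2 * A) + L * C, ?_⟩
  filter_upwards [h, hA, (tf4 x).eventually hA, t1.eventually hm, t2.eventually hL,
    t3.eventually hL, tf5 x] with p b a1 a2 m q1 q2 s1
  simp only [Function.comp, add_sub_cancel] at m q1 q2
  simp only [norm_neg, ← sub_eq_add_neg, map_neg] at a2
  obtain ⟨y, z⟩ := p
  simp only at b a1 a2 m q1 q2 s1 ⊢
  generalize fderiv ℝ Φ (a y, l y) = D at m q1 q2
  have s0 := norm_nonneg z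
  have s2 : ‖z‖ ^ 2 ≤ ‖z‖ := by nlinarith
  have f1 : ‖fderiv ℝ a y z‖ ≤ A * ‖z‖ :=
    ((fderiv ℝ a y).le_opNorm z).trans (mul_le_mul_of_nonneg_right a1.1 s0)
  have A2 := mul_le_mul_of_nonneg_left s2 a0
  have n1 : ‖(a (y + z), l (y + z)) - (a y, l y)‖ ≤ (2 * A + C) * ‖z‖ := by
    rw [Prod.mk_sub_mk, Prod.norm_mk]
    have e := norm_le_norm_sub_add (a (y + z) - a y) (fderiv ℝ a y z)
    refine max_le (by linarith [a1.2, mul_nonneg c0 s0]) ?_
    linarith [b.1, mul_nonneg a0 s0, Real.norm_eq_abs (l (y + z) - l y)]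
  have n2 : ‖(a (y - z), l (y - z)) - (a y, l y)‖ ≤ (2 * A + C) * ‖z‖ := by
    rw [Prod.mk_sub_mk, Prod.norm_mk]
    have e := norm_le_norm_sub_add (a (y - z) - a y) (-fderiv ℝ a y z)
    rw [norm_neg] at e
    refine max_le (by linarith [a2.2, mul_nonneg c0 s0]) ?_
    linarith [b.2.1, mul_nonneg a0 s0, Real.norm_eq_abs (l (y - z) - l y)]
  have n3 : ‖a (y + z) + a (y - z) - (2 : ℝ) • a y‖ ≤ 2 * A * ‖z‖ ^ 2 := by
    have e : a (y + z) + a (y - z) - (2 : ℝ) • a y = (a (y + z) - a y - fderiv ℝ a y z) +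
        (a (y - z) - a y - -fderiv ℝ a y z) := by rw [two_smul]; abel
    rw [e]
    linarith [norm_add_le (a (y + z) - a y - fderiv ℝ a y z) (a (y - z) - a y - -fderiv ℝ a y z),
      a1.2, a2.2]
  have B0 : 0 ≤ 2 * A + C := by positivity
  have r1 := (abs_le.1 (q1.2.trans (mul_le_mul_of_nonneg_left
    (pow_le_pow_left₀ (norm_nonneg _) n1 2) l0)))
  have r2 := (abs_le.1 (q2.2.trans (mul_le_mul_of_nonneg_left
    (pow_le_pow_left₀ (norm_nonneg _) n2 2) l0)))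
  rw [mul_pow] at r1 r2
  have d1 := abs_le.1 ((D.le_opNorm _).trans (mul_le_mul q1.1 n1 (norm_nonneg _) l0))
  have g0 : 0 ≤ L * (2 * A + C) ^ 2 := by positivity
  have g1 := mul_le_mul_of_nonneg_left s2 g0
  have g2 : 0 ≤ L * (2 * A) := by positivity
  have g3 : 0 ≤ L * C := by positivity
  have g4 : 0 ≤ L * (2 * A + C) := by positivity
  refine ⟨abs_le.2 ⟨?_, ?_⟩, ?_⟩
  · linarith [r1.1, d1.1, mul_nonneg g0 s0, mul_nonneg g2 s0, mul_nonneg g3 s0]
  · linarith [r1.2, d1.2, mul_nonneg g0 s0, mul_nonneg g2 s0, mul_nonneg g3 s0]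
  · have e : D ((a (y + z), l (y + z)) - (a y, l y)) + D ((a (y - z), l (y - z)) - (a y, l y)) =
        D (a (y + z) + a (y - z) - (2 : ℝ) • a y, 0) +
          (l (y + z) + l (y - z) - 2 * l y) * D (0, 1) := by
      rw [← smul_eq_mul, ← map_smul, ← map_add, ← map_add]
      congr 1
      ext
      · simp [two_smul]; abel
      · simp; ring
    have d2 := (abs_le.1 ((D.le_opNorm (a (y + z) + a (y - z) - (2 : ℝ) • a y, 0)).trans
      (mul_le_mul q1.1 (show ‖(a (y + z) + a (y - z) - (2 : ℝ) • a y, (0 : ℝ))‖ ≤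
        2 * A * ‖z‖ ^ 2 by simpa using n3) (norm_nonneg _) l0))).1
    have d3 : D (0, 1) ≤ L := by
      have := (le_abs_self _).trans (D.le_opNorm ((0 : V), (1 : ℝ)))
      simp only [Prod.norm_mk, norm_zero, norm_one, zero_le_one, max_eq_right, mul_one] at this
      exact this.trans q1.1
    have d4 := mul_le_mul_of_nonneg_right b.2.2 m
    have d5 := mul_le_mul_of_nonneg_left d3 (mul_nonneg c0 (sq_nonneg ‖z‖))
    linarith [r1.1, r2.1, mul_nonneg g4 (sq_nonneg ‖z‖)]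

theorem SC.zero (x : E n) : SC (fun _ => 0) x := ⟨0, Eventually.of_forall fun p => by simp⟩

theorem SC.of_c2 (h : ContDiffAt ℝ 2 l x) : SC l x :=
  (SC.zero x).comp2 (Φ := fun q : ℝ × ℝ => q.1) h contDiffAt_fst
    (Eventually.of_forall fun q => by rw [fderiv_fst]; simp)

theorem SC.comp {K : ℝ → ℝ} (h : SC l x) (hK : ContDiffAt ℝ 2 K (l x))
    (hm : ∀ᶠ t in 𝓝 (l x), 0 ≤ deriv K t) : SC (fun y => K (l y)) x := by
  have t : Tendsto (fun q : ℝ × ℝ => q.2) (𝓝 (0, l x)) (𝓝 (l x)) := continuous_snd.tendsto' _ _ rfl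
  refine h.comp2 (a := fun _ => (0 : ℝ)) (Φ := fun q : ℝ × ℝ => K q.2) contDiffAt_const
    (ContDiffAt.comp (g := K) _ hK contDiffAt_snd) ?_
  filter_upwards [t.eventually hm, t.eventually (hK.eventually (by simp))] with q a b
  have e := ((b.differentiableAt (by norm_num)).hasDerivAt.comp_hasFDerivAt q
    (hasFDerivAt_snd (𝕜 := ℝ) (p := q))).fderiv
  rw [show (fun q : ℝ × ℝ => K q.2) = K ∘ Prod.snd from rfl, e]
  simpa using a

theorem SC.hat {a b : E n → ℝ} (h : SC l x) (ha : ContDiffAt ℝ 2 a x) (hb : ContDiffAt ℝ 2 b x)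
    (h0 : 0 < a x) (h1 : 0 < a x + b x * l x) : SC (fun y => l y / (a y + b y * l y)) x := by
  have c1 : ContDiff ℝ 2 fun q : (ℝ × ℝ) × ℝ => q.1.1 + q.1.2 * q.2 := by fun_prop
  refine h.comp2 (a := fun y => (a y, b y))
    (Φ := fun q : (ℝ × ℝ) × ℝ => q.2 / (q.1.1 + q.1.2 * q.2)) (ha.prodMk hb)
    (contDiffAt_snd.div c1.contDiffAt h1.ne') ?_
  have e1 : ∀ᶠ q : (ℝ × ℝ) × ℝ in 𝓝 ((a x, b x), l x), 0 < q.1.1 :=
    (continuous_fst.fst.tendsto' _ (a x) rfl).eventually (Ioi_mem_nhds h0)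
  have e2 : ∀ᶠ q : (ℝ × ℝ) × ℝ in 𝓝 ((a x, b x), l x), 0 < q.1.1 + q.1.2 * q.2 :=
    (c1.continuous.tendsto' _ _ rfl).eventually (Ioi_mem_nhds h1)
  filter_upwards [e1, e2] with q a1 a2
  have d1 : DifferentiableAt ℝ (fun q : (ℝ × ℝ) × ℝ => q.2 / (q.1.1 + q.1.2 * q.2)) q :=
    ((contDiffAt_snd.div c1.contDiffAt a2.ne').differentiableAt (by norm_num) :)
  have d2 : HasDerivAt (fun t : ℝ => ((q.1, t) : (ℝ × ℝ) × ℝ)) (0, 1) q.2 :=
    (hasDerivAt_const q.2 q.1).prodMk (hasDerivAt_id q.2)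
  have d3 := d1.hasFDerivAt.comp_hasDerivAt q.2 d2
  have d4 := (hasDerivAt_id q.2).div (((hasDerivAt_id q.2).const_mul q.1.2).const_add q.1.1) a2.ne'
  rw [d3.unique d4]
  refine div_nonneg ?_ (sq_nonneg _)
  simp only [id]
  linarith

theorem scc : SCC := fun _ _ =>
  ⟨fun _ => SC.of_c2, fun _ _ => SC.congr, fun _ _ => SC.add, fun _ _ => SC.max,
    fun _ _ => SC.comp, fun _ _ _ => SC.hat, fun _ => SC.cont⟩

end Vale.Agent.P134W
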