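import Vale.Agent.P134W.Defs
import Vale.Agent.P134J.Sup

/-!
# P134W, row SUPA: the support by reflection
-/

open Filter Topology
open scoped RealInnerProductSpace
open Vale.Agent.P366.Stmt (E)
open Vale.Agent.P134B Vale.Agent.P134J

noncomputable section

namespace Vale.Agent.P134W

theorem supa_of (hm : MU) : SUPA := fun n C u x z h hc => by
  obtain ⟨d, e, hd, he, rfl⟩ : ∃ (d : ℝ) (e : E n), 0 < d ∧ ‖e‖ = 1 ∧ z = d • e :=
    ⟨‖z‖, ‖z‖⁻¹ • z, norm_pos_iff.2 hc.ne, norm_smul_inv_norm hc.ne,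
      (smul_inv_smul₀ (norm_ne_zero_iff.2 hc.ne) z).symm⟩
  have nz : ∀ t : ℝ, ‖t • e‖ ^ 2 = t ^ 2 := fun t => by
    rw [norm_smul, he, mul_one, Real.norm_eq_abs, sq_abs]
  have e1 : ∀ y, sup u x e d 0 y = Z2 (ps u) y (dd x e d y • e) := fun y => by
    rw [sup, Z2, nz, num, yy, real_inner_smul_right, sub_zero, div_eq_mul_inv]
    rfl
  have e2 : sup u x e d 0 x = m1 u x := by rw [e1, dd_self, hc.eq]
  obtain ⟨g, l⟩ := sup_jet h he hd.ne' e2 (by rw [hc.py, smul_smul])
  have ea : (2 / ‖d • e‖ ^ 2) • d • e = (2 / d) • e := by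
    rw [nz, smul_smul]
    congr 1
    field_simp
  have ee : ⟪e, e⟫ = 1 := by rw [real_inner_self_eq_norm_sq, he]; norm_num
  have e3 : ps u (x + d • e) - ps u x = d * pe u e x - m1 u x * d ^ 2 / 2 := by
    rw [← hc.eq, Z2, nz, real_inner_smul_right, show ⟪gradient (ps u) x, e⟫ = pe u e x from rfl]
    field_simp
    ring
  refine ⟨sup u x e d 0, ⟨(cd_sup h hd.ne').of_le (by norm_cast), e2,
    Eventually.of_forall fun y => (e1 y).trans_le ((hm n C u h).1 y _)⟩, ?_, ?_⟩
  · rw [g, ea, TT, map_smul]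
    module
  · rw [← e3, hc.qy] at l
    rw [ea, TT, RA, nz, map_smul, smul_comm, ← smul_add, real_inner_smul_left,
      real_inner_smul_right, inner_add_right, real_inner_smul_right, ee, real_inner_comm]
    rw [PP] at l ⊢
    field_simp
    linear_combination 2 * l

end Vale.Agent.P134W
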