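import Vale.Agent.P134W.Defs
import Vale.Agent.P134B.KI2

/-!
# P134W, row SUPB: the support in the osculating case
-/

open MeasureTheory Metric Filter Topology Set
open scoped ContDiff RealInnerProductSpace
open Vale.Agent.P366.Stmt (E)
open Vale.Agent.P366W (inner_grad smooth_gradient)
open Vale.Agent.P134B Vale.Agent.P134T

noncomputable section

namespace Vale.Agent.P134W

namespace SupB

theorem third {k k₁ k₂ : ℝ → ℝ} {b : ℝ} (h0 : ∀ t, HasDerivAt k (k₁ t) t)
    (h1 : ∀ t, HasDerivAt k₁ (k₂ t) t) (h2 : HasDerivAt k₂ b 0) (e0 : k 0 = 0) (e1 : k₁ 0 = 0)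
    (e2 : k₂ 0 = 0) (nn : ∀ t, 0 ≤ k t) : 0 ≤ b := by
  have z : ∀ {g : ℝ → ℝ}, ContinuousAt g 0 → g 0 = 0 → Tendsto g (𝓝[>] 0) (𝓝 0) :=
    fun hg e => (e ▸ hg.tendsto).mono_left nhdsWithin_le_nhds
  have L0 : Tendsto (fun t => k₂ t / t) (𝓝[>] 0) (𝓝 b) := by
    simpa [e2, div_eq_inv_mul] using h2.tendsto_slope_zero_right
  have L1 : Tendsto (fun t => k₁ t / (t ^ 2 / 2)) (𝓝[>] 0) (𝓝 b) :=
    HasDerivAt.lhopital_zero_nhdsGT (Eventually.of_forall h1)
      (Eventually.of_forall fun t => by simpa using (hasDerivAt_pow 2 t).div_const 2)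
      (eventually_mem_nhdsWithin.mono fun t ht => ne_of_gt ht) (z (h1 0).continuousAt e1)
      (z (by fun_prop) (by simp)) L0
  have L2 : Tendsto (fun t => k t / (t ^ 3 / 6)) (𝓝[>] 0) (𝓝 b) :=
    HasDerivAt.lhopital_zero_nhdsGT (Eventually.of_forall h0)
      (Eventually.of_forall fun t => ((hasDerivAt_pow 3 t).div_const 6).congr_deriv (by ring))
      (eventually_mem_nhdsWithin.mono fun t (ht : 0 < t) => by positivity)
      (z (h0 0).continuousAt e0) (z (by fun_prop) (by simp)) L1
  exact ge_of_tendsto L2 (eventually_mem_nhdsWithin.mono fun t (ht : 0 < t) =>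
    div_nonneg (nn t) (by positivity))

variable {n : ℕ} {C : ℝ} {u : E n → ℝ} {x e : E n}

/-- an entry of the Hessian -/
def Se (u : E n → ℝ) (a b y : E n) : ℝ := ⟪SS u y a, b⟫

theorem cS (h : Ok C u) : ContDiff ℝ ∞ (SS u) := h.tcp.fderiv_right (m := ∞) (by simp)

theorem cSa (h : Ok C u) (a : E n) : ContDiff ℝ ∞ fun y => SS u y a :=
  (cS h).clm_apply contDiff_const

theorem cSe (h : Ok C u) (a b : E n) : ContDiff ℝ ∞ (Se u a b) := (cSa h a).inner ℝ contDiff_const

theorem dSa (h : Ok C u) (a x : E n) :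
    HasFDerivAt (fun y => SS u y a) ((fderiv ℝ (SS u) x).flip a) x := by
  simpa using ((cS h).differentiable (by simp) x).hasFDerivAt.clm_apply (hasFDerivAt_const a x)

theorem gSe (h : Ok C u) (a b c x : E n) :
    ⟪gradient (Se u a b) x, c⟫ = ⟪fderiv ℝ (SS u) x c a, b⟫ := by
  rw [inner_grad, show Se u a b = fun y => ⟪SS u y a, b⟫ from rfl,
    ((dSa h a x).inner ℝ (hasFDerivAt_const b x)).fderiv]
  simp

theorem sy1 (h : Ok C u) (x a b : E n) : fderiv ℝ (SS u) x a b = fderiv ℝ (SS u) x b a :=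
  (h.tcp.contDiffAt (x := x)).isSymmSndFDerivAt (by simp; norm_cast) a b

theorem sy2 (h : Ok C u) (x a b c : E n) :
    ⟪fderiv ℝ (SS u) x c a, b⟫ = ⟪fderiv ℝ (SS u) x c b, a⟫ := by
  rw [← gSe h, ← gSe h, show Se u a b = Se u b a from
    funext fun y => (h.sy y a b).trans (real_inner_comm _ _)]

theorem cube (m : MU) (h : Ok C u) {v : E n} (hv : TT u x v = 0) :
    0 ≤ ⟪fderiv ℝ (SS u) x v v, v⟫ := by
  have dγ : ∀ t : ℝ, HasDerivAt (fun t : ℝ => x + t • v) v t := fun t => by
    simpa using ((hasDerivAt_id t).smul_const v).const_add x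
  have ch : ∀ {f : E n → ℝ}, ContDiff ℝ ∞ f → ∀ t : ℝ,
      HasDerivAt (fun t : ℝ => f (x + t • v)) ⟪gradient f (x + t • v), v⟫ t := fun hf t => by
    rw [inner_grad]
    exact (hf.differentiable (by simp) _).hasFDerivAt.comp_hasDerivAt t (dγ t)
  refine third (k := fun t => ps u (x + t • v) - ps u x - t * pe u v x +
      m1 u x * ‖v‖ ^ 2 * (t ^ 2 / 2))
    (k₁ := fun t => pe u v (x + t • v) - pe u v x + m1 u x * ‖v‖ ^ 2 * t)
    (k₂ := fun t => Se u v v (x + t • v) + m1 u x * ‖v‖ ^ 2) (fun t => ?_) (fun t => ?_) ?_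
    (by simp) (by simp) ?_ fun t => ?_
  · simpa [pe, pp] using (((ch h.smp t).sub_const (ps u x)).fun_sub
      ((hasDerivAt_id' t).mul_const (pe u v x))).fun_add
      (((hasDerivAt_pow 2 t).div_const 2).const_mul (m1 u x * ‖v‖ ^ 2))
  · simpa [h.gp, Se] using ((ch (h.tcpe v) t).sub_const (pe u v x)).fun_add
      ((hasDerivAt_id' t).const_mul (m1 u x * ‖v‖ ^ 2))
  · simpa [gSe h] using (ch (cSe h v v) 0).add_const (m1 u x * ‖v‖ ^ 2)
  · have := congrArg (fun w => ⟪w, v⟫) hv
    simpa [TT, Se, inner_add_left, inner_smul_left] using this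
  · have := (m n C u h).2.2.2.1 x (t • v)
    rw [inner_smul_right, norm_smul, mul_pow, Real.norm_eq_abs, sq_abs] at this
    simp only [pe]
    linarith

theorem cube0 (m : MU) (h : Ok C u) {v : E n} (hv : TT u x v = 0) :
    ⟪fderiv ℝ (SS u) x v v, v⟫ = 0 := by
  have := cube m h (v := -v) (by rw [TT, map_neg, smul_neg, ← neg_add, ← TT, hv, neg_zero])
  simp only [map_neg, _root_.neg_apply, neg_neg, inner_neg_right] at this
  linarith [cube m h hv]

/-- the vector `a` -/
theorem vec (m : MU) (h : Ok C u) (c : CB u x e) :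
    ∃ a, TT u x a = -gradient (Se u e e) x ∧ ⟪a, e⟫ = 0 := by
  let T : E n →ₗ[ℝ] E n := (SS u x : E n →ₗ[ℝ] E n) + m1 u x • LinearMap.id
  have hT : ∀ v, T v = TT u x v := fun _ => rfl
  have sy : T.IsSymmetric := fun v w => by
    simp only [hT, TT, inner_add_left, inner_add_right, inner_smul_left, inner_smul_right, h.sy,
      conj_trivial]
  have he : T e = 0 := c.ker
  have : -gradient (Se u e e) x ∈ T.rangeᗮᗮ := by
    rw [sy.orthogonal_range, Submodule.mem_orthogonal']
    intro w hw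
    have h0 := cube0 m h (v := w) hw
    have h1 := cube0 m h (v := e + w) (by rw [← hT, map_add, he, hw, add_zero])
    have h2 := cube0 m h (v := e - w) (by rw [← hT, map_sub, he, hw, sub_zero])
    simp only [map_add, map_sub, _root_.add_apply, _root_.sub_apply,
      inner_add_left, inner_add_right, inner_sub_left, inner_sub_right] at h1 h2
    rw [inner_neg_left, gSe h]
    linarith [sy1 h x e w ▸ sy2 h x w e e, congrArg (fun z => ⟪z, e⟫) (sy1 h x e w)]
  rw [Submodule.orthogonal_orthogonal] at this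
  obtain ⟨a, ha⟩ := this
  refine ⟨a - ⟪a, e⟫ • e, by rw [← hT, map_sub, map_smul, he, smul_zero, sub_zero, ha], ?_⟩
  rw [inner_sub_left, inner_smul_left, real_inner_self_eq_norm_sq, c.one]
  simp

theorem lapS (h : Ok C u) (c : CB u x e) : lap (Se u e e) x =
    2 * u x * ff u x * qq u x * pe u e x ^ 2 - 4 * √2 * ff u x * m1 u x * pe u e x ^ 2 +
      PP u x * m1 u x + 2 * √2 * u x * ⟪pp u x, gradient (Se u e e) x⟫ +
      2 * √2 * u x * m1 u x ^ 2 := by
  have g1 : gradient (pe u e) = fun y => SS u y e := funext (h.gp e)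
  have e1 : gradient (Se u e e) = fun y => fderiv ℝ (gradient (pe u e)) y e := funext fun y =>
    ext_inner_right ℝ fun w => by
      rw [gSe h, g1, (dSa h e y).fderiv, ContinuousLinearMap.flip_apply, sy1 h y w e, sy2 h]
  have e2 : (fun y => Vale.Agent.P366W.trc (fderiv ℝ (gradient (pe u e)) y)) = fun y =>
      2 * √2 * (u y * ⟪pp u y, SS u y e⟫) - √2 * (ff u y * qq u y * pe u e y) := funext fun y => by
    have j := h.jac e y
    rw [Lf, h.gp, PP] at j
    change lap (pe u e) y = _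
    linarith
  have hS : SS u x e = -(m1 u x • e) := eq_neg_of_add_eq_zero_left c.ker
  have du := h.sm.differentiable (by simp) x
  have df := h.tcf.differentiable (by simp) x
  have dp := h.tcp.differentiable (by simp) x
  have dq : DifferentiableAt ℝ (qq u) x :=
    (contDiff_const.sub (h.tcp.norm_sq ℝ)).differentiable (by simp) x
  have de := (h.tcpe e).differentiable (by simp) x
  have dv := (dp.hasFDerivAt.inner ℝ (dSa h e x))
  have k : ⟪SS u x (pp u x), e⟫ = -(m1 u x * pe u e x) := by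
    rw [h.sy, hS, inner_neg_right, inner_smul_right, pe]
  rw [lap, e1, Ki2.dvg_col (smooth_gradient (h.tcpe e)), ← e1, e2, ← inner_grad,
    grad_sub ((du.fun_mul dv.differentiableAt).const_mul _)
      (((df.fun_mul dq).fun_mul de).const_mul _),
    grad_cmul _ (du.fun_mul dv.differentiableAt), grad_cmul _ ((df.fun_mul dq).fun_mul de),
    grad_mul du dv.differentiableAt, grad_mul (df.fun_mul dq) de, grad_mul df dq, h.gu, h.gf, h.gq,
    h.gp, real_inner_comm (gradient _ x), gSe h, sy1 h x (pp u x), sy2 h]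
  simp only [inner_sub_left, inner_add_left, inner_smul_left, conj_trivial, k]
  rw [inner_grad, dv.fderiv]
  have s2 : √2 * √2 = 2 := Real.mul_self_sqrt (by norm_num)
  have ee : ⟪e, e⟫ = 1 := by rw [real_inner_self_eq_norm_sq, c.one, one_pow]
  simp only [ContinuousLinearMap.comp_apply, ContinuousLinearMap.prod_apply,
    fderivInnerCLM_apply, ContinuousLinearMap.flip_apply,
    show fderiv ℝ (pp u) x e = SS u x e from rfl, hS, inner_neg_left, inner_neg_right, inner_smul_left, inner_smul_right, conj_trivial, ee,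
    show ⟪e, pp u x⟫ = pe u e x from real_inner_comm _ _, real_inner_comm _ (pp u x), PP]
  linear_combination (u x * ff u x * qq u x * pe u e x ^ 2) * s2

end SupB

open SupB

/-- **SUPB** -/
theorem supb_of (m : MU) : SUPB := by
  intro n C u x e h c
  obtain ⟨a, ha, ae⟩ := vec m h c
  have ee : ⟪e, e⟫ = 1 := by rw [real_inner_self_eq_norm_sq, c.one, one_pow]
  have hS : SS u x e = -(m1 u x • e) := eq_neg_of_add_eq_zero_left c.ker
  obtain ⟨l, hl⟩ : ∃ l : E n → ℝ, l = fun y => ⟪y - x, e⟫ := ⟨_, rfl⟩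
  have cl : ContDiff ℝ 2 l := hl ▸ cd_lin x e
  have l0 : l x = 0 := by simp [hl]
  have l1 : gradient l x = e := hl ▸ grad_lin x e x
  have l2 : lap l x = 0 := hl ▸ lap_lin x e x
  have cq : ContDiff ℝ 2 fun y => l y * l y := cl.mul cl
  have q1 : gradient (fun y => l y * l y) x = 0 := by simp [grad_mul (d2 cl x) (d2 cl x), l0]
  have q2 : lap (fun y => l y * l y) x = 2 := by simp [lap_mul cl cl, l0, l1, c.one]
  obtain ⟨D, hD⟩ : ∃ D : E n → ℝ, D = fun y => 1 + ‖a‖ ^ 2 * (l y * l y) := ⟨_, rfl⟩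
  have cD : ContDiff ℝ 2 D := hD ▸ contDiff_const.add (contDiff_const.mul cq)
  have Dp : ∀ y, 0 < D y := fun y => by
    rw [hD]
    exact add_pos_of_pos_of_nonneg one_pos (mul_nonneg (sq_nonneg _) (mul_self_nonneg _))
  have D0 : D x = 1 := by simp [hD, l0]
  have D1 : gradient D x = 0 := by
    rw [hD, grad_add (differentiableAt_const _) ((d2 cq x).const_mul _), grad_const,
      grad_cmul _ (d2 cq x), q1, smul_zero, add_zero]
  have D2 : lap D x = 2 * ‖a‖ ^ 2 := by
    rw [hD, lap_add contDiff_const (contDiff_const.mul cq), lap_const, lap_cmul _ cq, q2]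
    ring
  obtain ⟨M, hM⟩ : ∃ M : E n → ℝ,
    M = fun y => Se u e e y + 2 * (l y * Se u e a y) + l y * l y * Se u a a y := ⟨_, rfl⟩
  have c1 := c2 (cSe h e e)
  have c3 := cl.mul (c2 (cSe h e a))
  have c4 := cq.mul (c2 (cSe h a a))
  have cM : ContDiff ℝ 2 M := hM ▸ (c1.add (contDiff_const.mul c3)).add c4
  have s0 : Se u e a x = 0 := by
    rw [Se, hS, inner_neg_left, inner_smul_left, real_inner_comm, ae, mul_zero, neg_zero]
  have M0 : M x = -m1 u x := by simp [hM, l0, Se, hS, inner_smul_left, c.one]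
  have M1 : gradient M x = gradient (Se u e e) x := by
    rw [hM, grad_add (d2 (c1.add (contDiff_const.mul c3)) x) (d2 c4 x),
      grad_add (d2 c1 x) ((d2 c3 x).const_mul _), grad_cmul _ (d2 c3 x),
      grad_mul (d2 cl x) (d2 (c2 (cSe h e a)) x), grad_mul (d2 cq x) (d2 (c2 (cSe h a a)) x), q1,
      l0, s0]
    simp
  have M2 : lap M x = lap (Se u e e) x + 4 * ⟪a, gradient (Se u e e) x⟫ + 2 * Se u a a x := by
    rw [hM, lap_add (c1.add (contDiff_const.mul c3)) c4, lap_add c1 (contDiff_const.mul c3),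
      lap_cmul _ c3, lap_mul cl (c2 (cSe h e a)), lap_mul cq (c2 (cSe h a a)), q1, q2, l0, l1, l2,
      real_inner_comm (gradient _ x) e, real_inner_comm (gradient _ x) a, gSe h, gSe h,
      sy1 h x a e, sy2 h x a e]
    simp only [inner_zero_left]
    ring
  have cφ : ContDiff ℝ 2 fun y => -M y / D y := cM.neg.div cD fun y => (Dp y).ne'
  have id : (fun y => -M y / D y * D y) = fun y => -1 * M y := funext fun y => by
    rw [div_mul_cancel₀ _ (Dp y).ne', neg_one_mul]
  have g1 := grad_mul (d2 cφ x) (d2 cD x)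
  have g2 := lap_mul cφ cD x
  rw [id, grad_cmul _ (d2 cM x), D0, D1, M1, smul_zero, zero_add, one_smul, neg_one_smul] at g1
  rw [id, lap_cmul _ cM, D0, D1, D2, M0, M2, lapS h c, inner_zero_right] at g2
  refine ⟨fun y => -M y / D y, a, ⟨cφ.contDiffAt, by simp [D0, M0],
    Eventually.of_forall fun y => ?_⟩, g1 ▸ ha.symm, ?_⟩
  · have := (m n C u h).2.2.2.2.1 y (e + l y • a)
    rw [div_le_iff₀ (Dp y), hM, hD]
    simp only [TT, map_add, map_smul, inner_add_left, inner_add_right, inner_smul_left,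
      inner_smul_right, conj_trivial, ee, ae, real_inner_comm a e, real_inner_self_eq_norm_sq,
      ← h.sy] at this
    simp only [Se]
    rw [h.sy y a e, real_inner_comm (SS u y e) a] at this
    linarith
  · have k : ⟪a, TT u x a⟫ = Se u a a x + m1 u x * ‖a‖ ^ 2 := by
      rw [TT, inner_add_right, inner_smul_right, real_inner_self_eq_norm_sq, ← h.sy, Se]
    have k' : ⟪a, TT u x a⟫ = -⟪a, gradient (Se u e e) x⟫ := by rw [ha, inner_neg_right]
    rw [Lf, ← g1, inner_neg_right, RB]
    linarith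

end Vale.Agent.P134W
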