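import Vale.Agent.P134W.Defs

/-!
# P134W: local calculus for the gradient and the Laplacian, Taylor bounds, supports
-/

set_option linter.all false

open MeasureTheory Metric Filter Topology Set
open scoped ContDiff RealInnerProductSpace
open Vale.Agent.P366.Stmt (E)
open Vale.Agent.P366W hiding Gr
open Vale.Agent.P134B Vale.Agent.P134T

noncomputable section

namespace Vale.Agent.P134W

variable {n : ℕ} {f g l φ : E n → ℝ} {x : E n} {K K₁ : ℝ → ℝ} {d : ℝ}

theorem dA (hf : ContDiffAt ℝ 2 f x) : DifferentiableAt ℝ f x := hf.differentiableAt (by norm_num)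

theorem evA (hf : ContDiffAt ℝ 2 f x) : ∀ᶠ y in 𝓝 x, DifferentiableAt ℝ f y :=
  (hf.eventually (by simp)).mono fun _ h => dA h

theorem cgA (hf : ContDiffAt ℝ 2 f x) : ContDiffAt ℝ 1 (gradient f) x :=
  (InnerProductSpace.toDual ℝ (E n)).symm.toContinuousLinearEquiv.contDiff.contDiffAt.comp x
    (hf.fderiv_right (m := 1) le_rfl)

theorem dgA (hf : ContDiffAt ℝ 2 f x) : DifferentiableAt ℝ (gradient f) x :=
  (cgA hf).differentiableAt one_ne_zero

theorem grad_congr (h : f =ᶠ[𝓝 x] g) : gradient f x = gradient g x := h.gradient_eq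

theorem lap_congr (h : f =ᶠ[𝓝 x] g) : lap f x = lap g x :=
  dvg_congr (h.eventuallyEq_nhds.mono fun _ hy => grad_congr hy)

theorem lapA_add (hf : ContDiffAt ℝ 2 f x) (hg : ContDiffAt ℝ 2 g x) :
    lap (fun y => f y + g y) x = lap f x + lap g x := by
  unfold lap
  rw [dvg_congr (Y := fun y => gradient f y + gradient g y) (by
    filter_upwards [evA hf, evA hg] with y a b using grad_add a b), dvg_add (dgA hf) (dgA hg)]

theorem lapA_sub (hf : ContDiffAt ℝ 2 f x) (hg : ContDiffAt ℝ 2 g x) :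
    lap (fun y => f y - g y) x = lap f x - lap g x := by
  unfold lap
  rw [dvg_congr (Y := fun y => gradient f y - gradient g y) (by
    filter_upwards [evA hf, evA hg] with y a b using grad_sub a b), dvg_sub (dgA hf) (dgA hg)]

theorem lapA_mul (hf : ContDiffAt ℝ 2 f x) (hg : ContDiffAt ℝ 2 g x) :
    lap (fun y => f y * g y) x =
      f x * lap g x + g x * lap f x + 2 * ⟪gradient f x, gradient g x⟫ := by
  unfold lap
  rw [dvg_congr (Y := fun y => f y • gradient g y + g y • gradient f y) (by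
      filter_upwards [evA hf, evA hg] with y a b using grad_mul a b),
    dvg_add ((dA hf).fun_smul (dgA hg)) ((dA hg).fun_smul (dgA hf)),
    dvg_smul (dA hf) (dgA hg), dvg_smul (dA hg) (dgA hf), ← inner_grad, ← inner_grad,
    real_inner_comm (gradient f x)]
  ring

theorem lapA_cmul (a : ℝ) (hf : ContDiffAt ℝ 2 f x) : lap (fun y => a * f y) x = a * lap f x := by
  rw [lapA_mul contDiffAt_const hf, lap_const, grad_const]; simp

theorem lapA_neg (hf : ContDiffAt ℝ 2 f x) : lap (fun y => -f y) x = -lap f x := by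
  simpa using lapA_cmul (-1) hf

theorem gradA_neg (hf : DifferentiableAt ℝ f x) : gradient (fun y => -f y) x = -gradient f x := by
  simpa using grad_cmul (-1) hf

theorem lapA_comp (hf : ContDiffAt ℝ 2 f x) (h1 : ∀ᶠ t in 𝓝 (f x), HasDerivAt K (K₁ t) t)
    (h2 : HasDerivAt K₁ d (f x)) :
    lap (fun y => K (f y)) x = d * ‖gradient f x‖ ^ 2 + K₁ (f x) * lap f x := by
  unfold lap
  have h3 : DifferentiableAt ℝ (fun y => K₁ (f y)) x := h2.differentiableAt.comp x (dA hf)
  rw [dvg_congr (Y := fun y => K₁ (f y) • gradient f y) (by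
      filter_upwards [evA hf, hf.continuousAt.eventually h1] with y a b using grad_comp b a),
    dvg_smul h3 (dgA hf), ← inner_grad, grad_comp h2 (dA hf), inner_smul_left,
    real_inner_self_eq_norm_sq]
  simp [add_comm]

/-- the chain rule with `deriv` -/
theorem lapA_comp' (hf : ContDiffAt ℝ 2 f x) (hK : ContDiffAt ℝ 2 K (f x)) :
    lap (fun y => K (f y)) x =
      deriv (deriv K) (f x) * ‖gradient f x‖ ^ 2 + deriv K (f x) * lap f x := by
  refine lapA_comp hf ((hK.eventually (by simp)).mono fun t ht =>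
    (ht.differentiableAt (by norm_num)).hasDerivAt) ?_
  have h1 : ContDiffAt ℝ 1 (deriv K) (f x) := by
    have h2 := (hK.fderiv_right (m := 1) le_rfl).clm_apply (contDiffAt_const (c := (1 : ℝ)))
    exact h2
  exact (h1.differentiableAt one_ne_zero).hasDerivAt

theorem gradA_inv (hf : DifferentiableAt ℝ f x) (h0 : f x ≠ 0) :
    gradient (fun y => (f y)⁻¹) x = (-(f x ^ 2)⁻¹) • gradient f x :=
  grad_comp (φ := fun t => t⁻¹) (hasDerivAt_inv h0) hf

theorem lapA_inv (hf : ContDiffAt ℝ 2 f x) (h0 : f x ≠ 0) : lap (fun y => (f y)⁻¹) x =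
    2 * (f x ^ 3)⁻¹ * ‖gradient f x‖ ^ 2 - (f x ^ 2)⁻¹ * lap f x := by
  have h2 : HasDerivAt (fun t : ℝ => -(t ^ 2)⁻¹) (2 * (f x ^ 3)⁻¹) (f x) := by
    have h3 := ((hasDerivAt_pow 2 (f x)).inv (pow_ne_zero 2 h0)).neg
    refine h3.congr_deriv ?_
    simp only [Nat.cast_ofNat, Nat.add_one_sub_one, pow_one]
    field_simp
  rw [lapA_comp (K := fun t => t⁻¹) (K₁ := fun t => -(t ^ 2)⁻¹) hf
    ((eventually_ne_nhds h0).mono fun t ht => hasDerivAt_inv ht) h2]
  ring

theorem Lf_congr (u : E n → ℝ) (h : f =ᶠ[𝓝 x] g) : Lf u f x = Lf u g x := by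
  rw [Lf, Lf, lap_congr h, grad_congr h]

/-- the gradient of a support -/
theorem Low.grad (h : Low l φ x) (hl : DifferentiableAt ℝ l x) : gradient φ x = gradient l x := by
  have h1 : IsLocalMax (fun y => φ y - l y) x := by
    filter_upwards [h.le] with y hy
    simp only [h.eq, sub_self]
    linarith
  have h2 := grad_max h1
  rw [grad_sub (dA h.c2) hl] at h2
  exact sub_eq_zero.1 h2

theorem Low.congr {l' : E n → ℝ} (h : Low l φ x) (e : l x = l' x) (e' : ∀ᶠ y in 𝓝 x, l y ≤ l' y) :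
    Low l' φ x := ⟨h.c2, h.eq.trans e, by filter_upwards [h.le, e'] with y a b using a.trans b⟩

theorem Low.add {l' φ' : E n → ℝ} (h : Low l φ x) (h' : Low l' φ' x) :
    Low (fun y => l y + l' y) (fun y => φ y + φ' y) x :=
  ⟨h.c2.add h'.c2, by rw [h.eq, h'.eq], by
    filter_upwards [h.le, h'.le] with y a b using add_le_add a b⟩

theorem Low.comp (h : Low l φ x) (hK : ContDiffAt ℝ 2 K (l x)) (hm : Monotone K) :
    Low (fun y => K (l y)) (fun y => K (φ y)) x :=
  ⟨ContDiffAt.comp (g := K) x (h.eq ▸ hK) h.c2, by rw [h.eq], h.le.mono fun y a => hm a⟩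

/-! ### Taylor bounds -/

section Taylor

variable {V W : Type} [NormedAddCommGroup V] [NormedSpace ℝ V] [NormedAddCommGroup W]
  [NormedSpace ℝ W]

/-- the remainder of the first order on a convex set -/
theorem taylor1 {w : V → W} {s : Set V} (hs : Convex ℝ s) (hw : ∀ y ∈ s, DifferentiableAt ℝ w y)
    {L : ℝ} (hL : 0 ≤ L) (h : ∀ y ∈ s, ∀ y' ∈ s, ‖fderiv ℝ w y' - fderiv ℝ w y‖ ≤ L * ‖y' - y‖)
    {y z : V} (hy : y ∈ s) (hz : y + z ∈ s) : ‖w (y + z) - w y - fderiv ℝ w y z‖ ≤ L * ‖z‖ ^ 2 := by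
  have h1 := (hs.inter (convex_closedBall y ‖z‖)).norm_image_sub_le_of_norm_hasFDerivWithin_le'
    (f := w) (f' := fderiv ℝ w) (φ := fderiv ℝ w y) (C := L * ‖z‖) (x := y) (y := y + z)
    (fun a ha => (hw a ha.1).hasFDerivAt.hasFDerivWithinAt)
    (fun a ha => (h y hy a ha.1).trans (mul_le_mul_of_nonneg_left (mem_closedBall_iff_norm.1 ha.2) hL))
    ⟨hy, mem_closedBall_self (norm_nonneg _)⟩ ⟨hz, by simp⟩
  rw [add_sub_cancel_left] at h1
  rw [sq, ← mul_assoc]
  exact h1

/-- the remainder of the first order near a point -/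
theorem taylor_loc {w : V → W} {q : V} (hw : ContDiffAt ℝ 2 w q) : ∃ L : ℝ, 0 ≤ L ∧
    ∀ᶠ p : V × V in 𝓝 (q, 0), ‖fderiv ℝ w p.1‖ ≤ L ∧
      ‖w (p.1 + p.2) - w p.1 - fderiv ℝ w p.1 p.2‖ ≤ L * ‖p.2‖ ^ 2 := by
  have h1 : ContDiffAt ℝ 1 (fderiv ℝ w) q := hw.fderiv_right (m := 1) le_rfl
  obtain ⟨L, t, ht, hL⟩ := h1.exists_lipschitzOnWith
  have h2 : ∀ᶠ y in 𝓝 q, DifferentiableAt ℝ w y :=
    (hw.eventually (by simp)).mono fun _ h => h.differentiableAt (by norm_num)
  have h3 : ∀ᶠ y in 𝓝 q, ‖fderiv ℝ w y‖ < ‖fderiv ℝ w q‖ + 1 :=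
    h1.continuousAt.norm.eventually_lt continuousAt_const (lt_add_one _)
  obtain ⟨r, hr, hb⟩ := Metric.mem_nhds_iff.1 (inter_mem ht (inter_mem h2 h3))
  refine ⟨L + (‖fderiv ℝ w q‖ + 1), by positivity, ?_⟩
  have t1 : Tendsto (fun p : V × V => p.1) (𝓝 (q, 0)) (𝓝 q) := continuous_fst.tendsto' _ _ rfl
  have t2 : Tendsto (fun p : V × V => p.1 + p.2) (𝓝 (q, 0)) (𝓝 q) :=
    (continuous_fst.add continuous_snd).tendsto' _ _ (by simp)
  filter_upwards [t1.eventually (ball_mem_nhds q hr), t2.eventually (ball_mem_nhds q hr)]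
    with p a b
  have a1 : ‖fderiv ℝ w p.1‖ < ‖fderiv ℝ w q‖ + 1 := (hb a).2.2
  refine ⟨by linarith [L.coe_nonneg], taylor1 (convex_ball q r) (fun y hy => (hb hy).2.1)
    (by positivity) (fun y hy y' hy' => ?_) a b⟩
  have h4 := hL.norm_sub_le (hb hy').1 (hb hy).1
  nlinarith [norm_nonneg (y' - y), norm_nonneg (fderiv ℝ w q)]

end Taylor

/-- the theorem of Rademacher for locally Lipschitz functions -/
theorem rad {ζ : E n → ℝ} (h : LocallyLipschitz ζ) : ∀ᵐ x, DifferentiableAt ℝ ζ x := by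
  have h1 : ∀ k : ℕ, ∀ᵐ x, x ∈ ball (0 : E n) k → DifferentiableAt ℝ ζ x := fun k => by
    obtain ⟨L, hL⟩ := (h.locallyLipschitzOn (s := closedBall (0 : E n) k)).exists_lipschitzOnWith_of_compact
      (isCompact_closedBall _ _)
    filter_upwards [hL.ae_differentiableWithinAt_of_mem (μ := volume)] with x hx hx'
    exact (hx (ball_subset_closedBall hx')).differentiableAt
      (mem_of_superset (isOpen_ball.mem_nhds hx') ball_subset_closedBall)
  filter_upwards [ae_all_iff.2 h1] with x hx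
  obtain ⟨k, hk⟩ := exists_nat_gt ‖x‖
  exact hx k (mem_ball_zero_iff.2 hk)

end Vale.Agent.P134W
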